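import Vale.Agent.P058.Nec

namespace Vale.Agent.P058

open Matrix
open scoped TensorProduct

variable {J : Type} {n : ℕ}

def IsoG (z : J → Fin n → ℝ) : Subgroup (Equiv.Perm J) where
  carrier := {π | Cong z fun j => z (π j)}
  one_mem' := fun _ _ => rfl
  mul_mem' := fun {a b} ha hb i j => (ha (b i) (b j)).trans (hb i j)
  inv_mem' := fun {a} ha i j => by simpa using (ha (a⁻¹ i) (a⁻¹ j)).symm

def Tr (z : J → Fin n → ℝ) : Prop := ∀ p q, ∃ π ∈ IsoG z, π p = q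

lemma Tr.sum_eq {z : J → Fin n → ℝ} (h : Tr z) [Fintype (IsoG z)] {M : Type} [AddCommMonoid M]
    (F : J → M) (p q : J) : ∑ π : IsoG z, F (π.1 p) = ∑ π : IsoG z, F (π.1 q) := by
  obtain ⟨σ, hσ, rfl⟩ := h p q
  exact (Fintype.sum_equiv (Equiv.mulRight (⟨σ, hσ⟩ : IsoG z)) _ _ fun π => rfl).symm

variable {I : Type} {d : ℕ} {x : I → Fin d → ℝ}

theorem TC_of_Tr [Fintype I] [DecidableEq I] [Nonempty I] [Finite J] {z : J → Fin n → ℝ}
    (h : Tr z) (e : I → J) (he : Cong x fun i => z (e i)) : TC x := by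
  classical
  have := Fintype.ofFinite (IsoG z)
  obtain ⟨o⟩ := ‹Nonempty I›
  have h1 := Rep.sum (x := x) (Finset.univ : Finset (IsoG z)) _ _ fun π _ =>
    Rep.copy (x := x) (y := fun i => z (π.1 (e i))) fun i j => (π.2 _ _).trans (he i j)
  have h2 := (h1.add (Rep.const (-∑ π : IsoG z, qq (z (π.1 (e o)))))).smul
    (Fintype.card (IsoG z) : ℚ)⁻¹
  refine TC_iff.2 (h2.congr ?_ ?_)
  · funext i
    simp only [Pi.smul_apply, Pi.add_apply, Finset.sum_apply, Pi.zero_apply]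
    rw [h.sum_eq (fun j => qq (z j)) (e i) (e o), add_neg_cancel, smul_zero]
  · rw [add_zero, Finset.sum_const, Finset.card_univ, ← Nat.cast_smul_eq_nsmul ℚ, smul_smul,
      inv_mul_cancel₀ (by exact_mod_cast Fintype.card_ne_zero), one_smul]

theorem TC_of_sep [Fintype I] [DecidableEq I] [Nonempty I] (h1 : ∀ i, ∑ a, x i a ^ 2 = 1)
    (h2 : ∀ j, ∃ l l' : Let d, ev x l j ≠ 0 ∧ ev x l' j ≠ 0 ∧
      ∀ i, i ≠ j → ev x l i = 0 ∨ ev x l' i = 0) : TC x := by
  choose l l' a1 a2 a3 using h2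
  have h3 := Rep.sum (x := x) Finset.univ _ _ fun j _ => (Rep.let (x := x) (l j) (l' j)).mul
    ((1 - qq (x j)) * ((ev x (l j) j)⁻¹ ⊗ₜ (ev x (l' j) j)⁻¹))
  refine TC_iff.2 ((((Rep.copy (x := x) (y := x) fun _ _ => rfl).add
    (Rep.const (-1))).add h3).congr ?_ ?_)
  · funext i
    simp only [Pi.add_apply, Finset.sum_apply, Pi.zero_apply]
    rw [Finset.sum_eq_single i]
    · rw [mul_assoc, Algebra.TensorProduct.tmul_mul_tmul, inv_mul_cancel₀ (a1 i),
        inv_mul_cancel₀ (a2 i), ← Algebra.TensorProduct.one_def]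
      ring
    · intro j _ hj
      rcases a3 j i hj.symm with h | h <;> simp [h]
    · simp
  · have : ∀ j, LinearMap.mul' ℚ ℝ (1 - qq (x j)) = 0 := by
      intro j
      simp [qq, Algebra.TensorProduct.one_def, ← sq, h1]
    simp [mul'_mul, this]

noncomputable def ka : ℝ := √2 - 1
noncomputable def kb : ℝ := √(1 - ka ^ 2)

lemma s2 : √2 ^ 2 = 2 := Real.sq_sqrt (by norm_num)
lemma ka_pos : 0 < ka := by
  have := s2; have := Real.sqrt_nonneg 2; unfold ka; nlinarith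
lemma ka_lt : ka < 1 := by
  have := s2; have := Real.sqrt_nonneg 2; unfold ka; nlinarith
lemma kb_sq : kb ^ 2 = 1 - ka ^ 2 := Real.sq_sqrt (by nlinarith [ka_pos, ka_lt])
lemma kb_pos : 0 < kb := Real.sqrt_pos.2 (by nlinarith [ka_pos, ka_lt])

noncomputable def kite : Fin 4 → Fin 2 → ℝ := ![![-1, 0], ![1, 0], ![ka, kb], ![ka, -kb]]

lemma kite_TC : TC kite := by
  have h1 := ka_pos
  have h2 := ka_lt
  have h3 := kb_pos
  have h4 := kb_sq
  refine TC_of_sep (fun i => ?_) fun j => ?_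
  · fin_cases i <;> simp [kite, h4]
  · fin_cases j
    · refine ⟨(-ka, ![1, 0]), (-1, ![1, 0]), ?_, ?_, fun i hi => ?_⟩
      · simp [ev, kite]; linarith
      · simp [ev, kite]
      · fin_cases i <;> simp [ev, kite] at hi ⊢
    · refine ⟨(-ka, ![1, 0]), (1, ![1, 0]), ?_, ?_, fun i hi => ?_⟩
      · simp [ev, kite]; linarith
      · simp [ev, kite]
      · fin_cases i <;> simp [ev, kite] at hi ⊢
    · refine ⟨(0, ![0, 1]), (kb, ![0, 1]), ?_, ?_, fun i hi => ?_⟩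
      · simp [ev, kite]; linarith
      · simp [ev, kite]; linarith
      · fin_cases i <;> simp [ev, kite] at hi ⊢
    · refine ⟨(0, ![0, 1]), (-kb, ![0, 1]), ?_, ?_, fun i hi => ?_⟩
      · simp [ev, kite]; linarith
      · simp [ev, kite]; linarith
      · fin_cases i <;> simp [ev, kite] at hi ⊢

lemma kite_rel {y : Fin 4 → Fin n → ℝ} (h : Cong kite y) (c : Fin n) :
    y 2 c + y 3 c - y 0 c - y 1 c = ka * (y 1 c - y 0 c) := by
  have h4 := kb_sq
  have : ∑ c, (y 2 c + y 3 c - y 0 c - y 1 c - ka * (y 1 c - y 0 c)) ^ 2 = 0 := by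
    have e : ∀ c, (y 2 c + y 3 c - y 0 c - y 1 c - ka * (y 1 c - y 0 c)) ^ 2 =
        (ka - 1) * (1 + ka) * (y 0 c - y 1 c) ^ 2 - (ka - 1) * (y 0 c - y 2 c) ^ 2 -
        (ka - 1) * (y 0 c - y 3 c) ^ 2 + (1 + ka) * (y 1 c - y 2 c) ^ 2 +
        (1 + ka) * (y 1 c - y 3 c) ^ 2 - (y 2 c - y 3 c) ^ 2 := fun c => by ring
    simp only [e, Finset.sum_add_distrib, Finset.sum_sub_distrib, ← Finset.mul_sum]
    rw [h, h, h, h, h, h]
    simp [kite]
    linear_combination 0 * h4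
  have := (Finset.sum_eq_zero_iff_of_nonneg fun c _ => sq_nonneg _).1 this c (Finset.mem_univ c)
  exact sub_eq_zero.1 (pow_eq_zero_iff (by norm_num) |>.1 this)

theorem kite_not [Finite J] {z : J → Fin n → ℝ} (h : Tr z) (e : Fin 4 → J)
    (he : Cong kite fun i => z (e i)) : False := by
  classical
  have := Fintype.ofFinite (IsoG z)
  obtain ⟨c, hc⟩ : ∃ c, z (e 1) c - z (e 0) c ≠ 0 := by
    by_contra hc
    push Not at hc
    have := he 1 0
    simp [hc, kite] at this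
    norm_num at this
  obtain ⟨θ, hθ⟩ : ∃ θ : Module.Dual ℚ ℝ, θ (z (e 1) c - z (e 0) c) ≠ 0 := by
    by_contra hθ
    push Not at hθ
    exact hc ((Module.forall_dual_apply_eq_zero_iff ℚ _).1 hθ)
  let τ : ℝ → ℝ := fun y => θ (√2 * y) - θ y * √2
  have t1 : ∀ a b, τ (a + b) = τ a + τ b := fun a b => by
    simp only [τ, mul_add, map_add]; push_cast; ring
  have t2 : ∀ a b, τ (a - b) = τ a - τ b := fun a b => by
    simp only [τ, mul_sub, map_sub]; push_cast; ring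
  have t3 : ∀ a, τ (ka * a) = (-√2 - 1) * τ a := fun a => by
    have e1 : √2 * (√2 * a) = a + a := by rw [← mul_assoc, ← sq, s2]; ring
    rw [ka, sub_mul, one_mul, t2]
    simp only [τ, e1, map_add]; push_cast
    linear_combination (-(θ a : ℝ)) * s2
  have t4 : τ (z (e 1) c - z (e 0) c) ≠ 0 := by
    intro h0
    apply irrational_sqrt_two
    refine ⟨θ (√2 * (z (e 1) c - z (e 0) c)) / θ (z (e 1) c - z (e 0) c), ?_⟩
    have : ((θ (z (e 1) c - z (e 0) c) : ℚ) : ℝ) ≠ 0 := by exact_mod_cast hθ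
    push_cast
    rw [div_eq_iff this, sub_eq_zero.1 h0, mul_comm]
  let u : Fin 4 → IsoG z → ℝ := fun k π => τ (z (π.1 (e k)) c)
  have hu : ∀ π, u 2 π + u 3 π - u 0 π - u 1 π = (-√2 - 1) * (u 1 π - u 0 π) := fun π => by
    have := congrArg τ (kite_rel (y := fun i => z (π.1 (e i)))
      (fun i j => (π.2 _ _).trans (he i j)) c)
    rwa [t3, t2, t2, t1, t2] at this
  have hs : ∀ k, ∑ π, u k π ^ 2 = ∑ π, u 0 π ^ 2 := fun k =>
    h.sum_eq (fun j => τ (z j c) ^ 2) _ _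
  have h2 := s2
  have h3 := Real.sqrt_nonneg 2
  have hp : ∀ π, 2 * (u 1 π - u 0 π) ^ 2 ≤ 2 * u 2 π ^ 2 + 2 * u 3 π ^ 2 + 2 * √2 * u 1 π ^ 2 -
      (4 + 2 * √2) * u 0 π ^ 2 := fun π => by
    have e : u 2 π + u 3 π = u 0 π + u 1 π + (-√2 - 1) * (u 1 π - u 0 π) := by linarith [hu π]
    have e2 : (u 2 π + u 3 π) ^ 2 = (u 0 π + u 1 π) ^ 2 + (3 + 2 * √2) * (u 1 π - u 0 π) ^ 2 +
        2 * (-√2 - 1) * (u 1 π ^ 2 - u 0 π ^ 2) := by
      rw [e]; linear_combination (u 1 π - u 0 π) ^ 2 * h2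
    nlinarith [sq_nonneg (u 2 π - u 3 π), mul_nonneg h3 (sq_nonneg (u 1 π - u 0 π))]
  have h4 := Finset.sum_le_sum fun π (_ : π ∈ Finset.univ) => hp π
  simp only [Finset.sum_add_distrib, Finset.sum_sub_distrib, ← Finset.mul_sum] at h4
  rw [hs 1, hs 2, hs 3] at h4
  have h5 := Finset.single_le_sum (f := fun π => (u 1 π - u 0 π) ^ 2)
    (fun π (_ : π ∈ Finset.univ) => sq_nonneg _) (Finset.mem_univ 1)
  have h6 : 0 < (u 1 1 - u 0 1) ^ 2 := by
    rw [t2] at t4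
    exact sq_pos_of_ne_zero t4
  linarith

end Vale.Agent.P058
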