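import Mathlib

namespace Vale.Agent.P058

open scoped commutatorElement

abbrev GG := Monoid.Coprod (Multiplicative ℝ) (Multiplicative ℝ)

noncomputable def sg (s : ℝ) : GG := Monoid.Coprod.inl (Multiplicative.ofAdd s)
noncomputable def rh (s : ℝ) : GG := Monoid.Coprod.inr (Multiplicative.ofAdd s)
noncomputable def g (t : ℝ) : GG := sg t * (rh t)⁻¹

lemma sg_add (s t : ℝ) : sg (s + t) = sg s * sg t := by simp [sg, ofAdd_add]
lemma rh_add (s t : ℝ) : rh (s + t) = rh s * rh t := by simp [rh, ofAdd_add]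
@[simp] lemma sg_zero : sg 0 = 1 := by simp [sg]
@[simp] lemma rh_zero : rh 0 = 1 := by simp [rh]
lemma sg_neg (s : ℝ) : sg (-s) = (sg s)⁻¹ := by simp [sg, ofAdd_neg]
lemma rh_neg (s : ℝ) : rh (-s) = (rh s)⁻¹ := by simp [rh, ofAdd_neg]
@[simp] lemma g_zero : g 0 = 1 := by simp [g]
lemma sg_comm (s t : ℝ) : Commute (sg s) (sg t) := by
  unfold Commute SemiconjBy; rw [← sg_add, ← sg_add, add_comm]
lemma sg_nat (M : ℕ) (s : ℝ) : sg (M * s) = sg s ^ M := by
  induction M with
  | zero => simp
  | succ M ih => rw [pow_succ, ← ih, ← sg_add]; push_cast; ring_nf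
lemma rh_nat (M : ℕ) (s : ℝ) : rh (M * s) = rh s ^ M := by
  induction M with
  | zero => simp
  | succ M ih => rw [pow_succ, ← ih, ← rh_add]; push_cast; ring_nf

lemma GG_ind {p : GG → Prop} (h1 : ∀ s, p (sg s)) (h2 : ∀ s, p (rh s))
    (h3 : ∀ a b, p a → p b → p (a * b)) (a : GG) : p a :=
  Monoid.Coprod.induction_on a (fun m => h1 m.toAdd) (fun m => h2 m.toAdd) h3

lemma sg_conj (c t : ℝ) : sg c * g t * (sg c)⁻¹ = g (t + c) * (g c)⁻¹ := by
  have : sg (t + c) = sg c * sg t := by rw [add_comm, sg_add]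
  have h2 : rh (t + c) = rh c * rh t := by rw [add_comm, rh_add]
  simp only [g, this, h2]
  group

def FF : Subgroup GG := Subgroup.closure (Set.range g)

lemma g_mem (t : ℝ) : g t ∈ FF := Subgroup.subset_closure ⟨t, rfl⟩

lemma sg_conj_mem (c : ℝ) {f : GG} (hf : f ∈ FF) : sg c * f * (sg c)⁻¹ ∈ FF := by
  induction hf using Subgroup.closure_induction with
  | mem x hx => obtain ⟨t, rfl⟩ := hx; rw [sg_conj]; exact mul_mem (g_mem _) (inv_mem (g_mem _))
  | one => simp
  | mul x y _ _ h1 h2 => convert mul_mem h1 h2 using 1; group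
  | inv x _ h1 => convert inv_mem h1 using 1; group

lemma decomp (h : GG) : ∃ f ∈ FF, ∃ c, h = f * sg c := by
  induction h using GG_ind with
  | h1 s => exact ⟨1, one_mem _, s, by simp⟩
  | h2 s => exact ⟨(g s)⁻¹, inv_mem (g_mem s), s, by simp [g]⟩
  | h3 a b ha hb =>
    obtain ⟨f, hf, c, rfl⟩ := ha
    obtain ⟨f', hf', c', rfl⟩ := hb
    exact ⟨f * (sg c * f' * (sg c)⁻¹), mul_mem hf (sg_conj_mem c hf'), c + c', by
      rw [sg_add]; group⟩

instance FF_normal : FF.Normal := ⟨fun f hf h => by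
  obtain ⟨f', hf', c, rfl⟩ := decomp h
  convert mul_mem (mul_mem hf' (sg_conj_mem c hf)) (inv_mem hf') using 1; group⟩

def lcs (k : ℕ) : Subgroup GG := (⊤ : Subgroup GG).lowerCentralSeries k

instance lcs_normal (k : ℕ) : (lcs k).Normal := by unfold lcs; infer_instance

lemma lcs_succ (k : ℕ) : lcs (k + 1) = ⁅lcs k, ⊤⁆ := rfl

lemma lcs_one_le : lcs 1 ≤ FF := by
  rw [lcs_succ, Subgroup.commutator_le]
  intro a _ b _
  obtain ⟨f, hf, c, rfl⟩ := decomp a
  obtain ⟨f', hf', c', rfl⟩ := decomp b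
  rw [← QuotientGroup.eq_one_iff, ← QuotientGroup.mk'_apply, map_commutatorElement,
    commutatorElement_eq_one_iff_commute, map_mul, map_mul]
  have e1 : QuotientGroup.mk' FF f = 1 := (QuotientGroup.eq_one_iff _).2 hf
  have e2 : QuotientGroup.mk' FF f' = 1 := (QuotientGroup.eq_one_iff _).2 hf'
  rw [e1, e2, one_mul, one_mul]
  exact (sg_comm c c').map _

lemma lcs_le_FF {k : ℕ} (hk : 1 ≤ k) : lcs k ≤ FF :=
  le_trans (Subgroup.lowerCentralSeries_antitone _ hk) lcs_one_le

noncomputable def mulHom (t : ℝ) : Multiplicative ℝ →* Multiplicative ℝ :=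
  AddMonoidHom.toMultiplicative (AddMonoidHom.mulLeft t)

noncomputable def psi (t : ℝ) : GG →* GG := Monoid.Coprod.map (mulHom t) (mulHom t)

lemma psi_sg (t s : ℝ) : psi t (sg s) = sg (t * s) := rfl
lemma psi_rh (t s : ℝ) : psi t (rh s) = rh (t * s) := rfl
lemma psi_g (t s : ℝ) : psi t (g s) = g (t * s) := by simp [g, psi_sg, psi_rh]

lemma psi_FF (t : ℝ) {f : GG} (hf : f ∈ FF) : psi t f ∈ FF := by
  induction hf using Subgroup.closure_induction with
  | mem x hx => obtain ⟨s, rfl⟩ := hx; rw [psi_g]; exact g_mem _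
  | one => simp
  | mul x y _ _ h1 h2 => rw [map_mul]; exact mul_mem h1 h2
  | inv x _ h1 => rw [map_inv]; exact inv_mem h1

lemma psi_lcs_mem (t : ℝ) (k : ℕ) {f : GG} (hf : f ∈ lcs k) : psi t f ∈ lcs k := by
  have h1 := Subgroup.mem_map_of_mem (psi t) hf
  unfold lcs at *
  rw [Subgroup.map_lowerCentralSeries] at h1
  exact Subgroup.lowerCentralSeries_mono k le_top h1

section comm
variable {Q : Type*} [Group Q]

lemma comm_right {a b c : Q} (h : Commute b ⁅a, c⁆) : ⁅a, b * c⁆ = ⁅a, b⁆ * ⁅a, c⁆ := by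
  rw [commutatorElement_mul_right_eq_mul_conj, mul_assoc, mul_assoc, ← mul_assoc b,
    h.mul_inv_cancel]

lemma comm_left {a b c : Q} (h : Commute a ⁅b, c⁆) : ⁅a * b, c⁆ = ⁅b, c⁆ * ⁅a, c⁆ := by
  rw [commutatorElement_mul_left_eq_conj_mul, h.mul_inv_cancel]

lemma comm_pow_right {a b : Q} (h : Commute b ⁅a, b⁆) (M : ℕ) : ⁅a, b ^ M⁆ = ⁅a, b⁆ ^ M := by
  induction M with
  | zero => simp
  | succ M ih => rw [pow_succ, comm_right (h.pow_left M), ih, pow_succ]

lemma comm_pow_left {a b : Q} (h : Commute a ⁅a, b⁆) (M : ℕ) : ⁅a ^ M, b⁆ = ⁅a, b⁆ ^ M := by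
  induction M with
  | zero => simp
  | succ M ih => rw [pow_succ, comm_left (h.pow_left M), ih, pow_succ']

lemma comm_kill {a : Q} (h : ∀ b c : Q, Commute c ⁅a, b⁆) {b : Q} (hb : b ∈ commutator Q) :
    ⁅a, b⁆ = 1 := by
  let φ : Q →* Q :=
    { toFun := fun b => ⁅a, b⁆
      map_one' := by simp
      map_mul' := fun b c => comm_right (h c b) }
  have : commutator Q ≤ φ.ker := by
    rw [commutator_def, Subgroup.commutator_le]
    intro u _ v _
    rw [MonoidHom.mem_ker, map_commutatorElement, commutatorElement_eq_one_iff_commute]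
    exact h v _
  exact this hb

end comm

lemma central (k : ℕ) {y : GG} (hy : y ∈ lcs k) (c : GG ⧸ lcs (k + 1)) :
    Commute c (QuotientGroup.mk' _ y) := by
  obtain ⟨c, rfl⟩ := QuotientGroup.mk'_surjective _ c
  apply Commute.symm
  rw [← commutatorElement_eq_one_iff_commute, ← map_commutatorElement]
  exact (QuotientGroup.eq_one_iff _).2 (Subgroup.commutator_mem_commutator hy trivial)

lemma psi_lcs (M : ℕ) (k : ℕ) {y : GG} (hy : y ∈ lcs k) :
    QuotientGroup.mk' (lcs (k + 1)) (psi M y) = QuotientGroup.mk' _ y ^ (M ^ (k + 1)) := by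
  induction k generalizing y with
  | zero =>
    clear hy
    induction y using GG_ind with
    | h1 s => rw [psi_sg, sg_nat]; simp
    | h2 s => rw [psi_rh, rh_nat]; simp
    | h3 a b ha hb =>
      rw [map_mul, map_mul, ha, hb, map_mul, Commute.mul_pow]
      exact central 0 trivial _
  | succ k ih =>
    rw [lcs_succ, Subgroup.commutator_def] at hy
    induction hy using Subgroup.closure_induction with
    | mem x hx =>
      obtain ⟨p, hp, q, _, rfl⟩ := hx
      set π := QuotientGroup.mk' (lcs (k + 1 + 1)) with hπ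
      have cen : ∀ p ∈ lcs k, ∀ b c : GG ⧸ lcs (k + 1 + 1), Commute c ⁅π p, b⁆ := by
        intro p hp b c
        obtain ⟨b, rfl⟩ := QuotientGroup.mk'_surjective _ b
        rw [← map_commutatorElement]
        exact central (k + 1) (Subgroup.commutator_mem_commutator hp trivial) c
      obtain ⟨d, hd, e1⟩ : ∃ d ∈ lcs (k + 1), psi M p = p ^ (M ^ (k + 1)) * d := by
        have := ih hp
        rw [← map_pow] at this
        obtain ⟨z, hz, e⟩ := (QuotientGroup.mk'_eq_mk' _).1 this.symm
        exact ⟨z, hz, e.symm⟩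
      obtain ⟨d', hd', e2⟩ : ∃ d ∈ lcs 1, psi M q = q ^ M * d := by
        have : QuotientGroup.mk' (lcs 1) (psi M q) = QuotientGroup.mk' _ q ^ M := by
          clear e1 cen hπ
          induction q using GG_ind with
          | h1 s => rw [psi_sg, sg_nat]; simp
          | h2 s => rw [psi_rh, rh_nat]; simp
          | h3 a b ha hb =>
            rw [map_mul, map_mul, ha trivial, hb trivial, map_mul, Commute.mul_pow]
            exact central 0 trivial _
        rw [← map_pow] at this
        obtain ⟨z, hz, e⟩ := (QuotientGroup.mk'_eq_mk' _).1 this.symm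
        exact ⟨z, hz, e.symm⟩
      have e3 : ∀ b : GG ⧸ lcs (k + 1 + 1), ⁅π d, b⁆ = 1 := fun b =>
        commutatorElement_eq_one_iff_commute.2 (central (k + 1) hd b).symm
      have e4 : π d' ∈ commutator (GG ⧸ lcs (k + 1 + 1)) := by
        have := Subgroup.mem_map_of_mem π hd'
        rw [lcs_succ 0, Subgroup.map_commutator] at this
        exact Subgroup.commutator_mono le_top le_top this
      rw [map_commutatorElement, map_commutatorElement, map_commutatorElement, e1, e2, map_mul,
        map_mul, map_pow, map_pow, comm_left (by rw [e3]; exact Commute.one_right _), e3, one_mul,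
        comm_pow_left (cen p hp _ _), comm_right (cen p hp _ _), comm_kill (cen p hp) e4, mul_one,
        comm_pow_right (cen p hp _ _), ← pow_mul, pow_succ' M (k + 1)]
    | one => simp
    | mul x y hx hy h1 h2 =>
      rw [map_mul, map_mul, h1, h2, map_mul, Commute.mul_pow]
      exact central (k + 1) hy _
    | inv x _ h1 => rw [map_inv, map_inv, h1, map_inv, inv_pow]

end Vale.Agent.P058
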