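import Vale.Agent.P058.Ultra

namespace Vale.Agent.P058

open Matrix
open scoped TensorProduct

abbrev TT2 := ℝ ⊗[ℚ] ℝ

variable {I : Type} {d : ℕ} (x : I → Fin d → ℝ)

def Rep (v : I → TT2) (B : Fin d → Fin d → ℝ) : Prop :=
  ∃ P : Option (Fin d) → Option (Fin d) → TT2,
    (∀ i, ∑ a, ∑ b, (pp x i a ⊗ₜ[ℚ] pp x i b) * P a b = v i) ∧
      ∀ α β, LinearMap.mul' ℚ ℝ (P (some α) (some β)) = B α β

def dl (d : ℕ) : Fin d → Fin d → ℝ := fun α β => if α = β then 1 else 0

variable {x}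

lemma TC_iff : TC x ↔ Rep x 0 (dl d) := Iff.rfl

lemma mul'_mul (s t : TT2) :
    LinearMap.mul' ℚ ℝ (s * t) = LinearMap.mul' ℚ ℝ s * LinearMap.mul' ℚ ℝ t := by
  have := map_mul (Algebra.TensorProduct.lmul' ℚ (S := ℝ)) s t
  simp only [← Algebra.TensorProduct.lmul'_toLinearMap]
  exact this

lemma Rep.congr {v v' B B'} (h : Rep x v B) (h1 : v = v') (h2 : B = B') : Rep x v' B' :=
  h1 ▸ h2 ▸ h

lemma Rep.add {v v' B B'} (h : Rep x v B) (h' : Rep x v' B') : Rep x (v + v') (B + B') := by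
  obtain ⟨P, h1, h2⟩ := h
  obtain ⟨P', h3, h4⟩ := h'
  exact ⟨P + P', fun i => by simp only [Pi.add_apply, mul_add, Finset.sum_add_distrib, h1, h3],
    fun α β => by simp [h2, h4]⟩

lemma Rep.mul {v B} (h : Rep x v B) (τ : TT2) :
    Rep x (fun i => τ * v i) (LinearMap.mul' ℚ ℝ τ • B) := by
  obtain ⟨P, h1, h2⟩ := h
  refine ⟨fun a b => τ * P a b, fun i => ?_, fun α β => by simp [mul'_mul, h2]⟩
  simp only [← h1 i, Finset.mul_sum, mul_left_comm]

lemma Rep.const (τ : TT2) : Rep x (fun _ => τ) 0 := by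
  refine ⟨fun a b => if a = none ∧ b = none then τ else 0, fun i => ?_, by simp⟩
  simp [Fintype.sum_option, pp, ← Algebra.TensorProduct.one_def]

lemma Rep.smul {v B} (h : Rep x v B) (q : ℚ) : Rep x (q • v) (q • B) := by
  refine (h.mul (q • 1)).congr ?_ ?_
  · funext i; simp
  · funext a b; simp [Algebra.TensorProduct.one_def, Rat.smul_def]

lemma Rep.sum {α : Type} (s : Finset α) (v : α → I → TT2) (B : α → Fin d → Fin d → ℝ)
    (h : ∀ a ∈ s, Rep x (v a) (B a)) : Rep x (∑ a ∈ s, v a) (∑ a ∈ s, B a) := by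
  classical
  induction s using Finset.induction_on with
  | empty => exact (Rep.const 0).congr (by funext i; simp) (by simp)
  | insert a s ha ih =>
    rw [Finset.sum_insert ha, Finset.sum_insert ha]
    exact (h a (by simp)).add (ih fun b hb => h b (by simp [hb]))

lemma Rep.let (l l' : Let d) :
    Rep x (fun i => ev x l i ⊗ₜ ev x l' i) (fun α β => l.2 α * l'.2 β) := by
  refine ⟨fun a b => a.elim l.1 l.2 ⊗ₜ b.elim l'.1 l'.2, fun i => ?_, by simp⟩
  simp only [Algebra.TensorProduct.tmul_mul_tmul, ← TensorProduct.tmul_sum,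
    ← TensorProduct.sum_tmul]
  simp [Fintype.sum_option, pp, ev, dotProduct, mul_comm]

lemma Rep.lin {k : ℕ} (F F' : (Fin d → ℝ) →ₗ[ℝ] (Fin k → ℝ)) (b b' : Fin k → ℝ) (o : Fin d → ℝ) :
    Rep x (fun i => ∑ c, (b + F (x i - o)) c ⊗ₜ (b' + F' (x i - o)) c)
      (fun α β => F (Pi.single α 1) ⬝ᵥ F' (Pi.single β 1)) := by
  have key : ∀ (F : (Fin d → ℝ) →ₗ[ℝ] (Fin k → ℝ)) (b : Fin k → ℝ) c i,
      ev x (b c - F o c, fun α => F (Pi.single α 1) c) i = (b + F (x i - o)) c := by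
    intro F b c i
    have : F (x i) c = ∑ α, F (Pi.single α 1) c * x i α := by
      conv_lhs => rw [pi_eq_sum_univ' (x i), map_sum]
      simp [mul_comm]
    simp only [ev, dotProduct, map_sub, Pi.add_apply, Pi.sub_apply, this]; ring
  refine (Rep.sum Finset.univ _ _ fun c _ => Rep.let (x := x)
    (b c - F o c, fun α => F (Pi.single α 1) c)
    (b' c - F' o c, fun α => F' (Pi.single α 1) c)).congr ?_ ?_
  · funext i; simp only [Finset.sum_apply, key]
  · funext α β; simp [dotProduct, Finset.sum_apply]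

def Cong {d D : ℕ} (x : I → Fin d → ℝ) (y : I → Fin D → ℝ) : Prop :=
  ∀ i j, ∑ c, (y i c - y j c) ^ 2 = ∑ c, (x i c - x j c) ^ 2

noncomputable def qq {D : ℕ} (y : Fin D → ℝ) : TT2 := ∑ c, y c ⊗ₜ y c

lemma Rep.copy [Fintype I] [DecidableEq I] [Nonempty I] {D : ℕ} {y : I → Fin D → ℝ}
    (h : Cong x y) : Rep x (fun i => qq (y i)) (dl d) := by
  obtain ⟨o⟩ := ‹Nonempty I›
  have pol : ∀ {k : ℕ} (z : I → Fin k → ℝ) i j, 2 * ((z i - z o) ⬝ᵥ (z j - z o)) =
      ∑ c, (z i c - z o c) ^ 2 + ∑ c, (z j c - z o c) ^ 2 - ∑ c, (z i c - z j c) ^ 2 := by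
    intro k z i j
    rw [dotProduct, Finset.mul_sum, ← Finset.sum_add_distrib, ← Finset.sum_sub_distrib]
    exact Finset.sum_congr rfl fun c _ => by simp; ring
  have gr : ∀ i j, (y i - y o) ⬝ᵥ (y j - y o) = (x i - x o) ⬝ᵥ (x j - x o) := by
    intro i j
    have h1 := pol x i j
    have h2 := pol y i j
    rw [h, h, h] at h2
    linarith
  let φ := Fintype.linearCombination ℝ fun i => x i - x o
  let ψ := Fintype.linearCombination ℝ fun i => y i - y o
  have hφψ : ∀ u v, ψ u ⬝ᵥ ψ v = φ u ⬝ᵥ φ v := by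
    intro u v
    simp only [φ, ψ, Fintype.linearCombination_apply, sum_dotProduct, dotProduct_sum,
      smul_dotProduct, dotProduct_smul, gr]
  obtain ⟨s, hs⟩ := φ.rangeRestrict.exists_rightInverse_of_surjective φ.range_rangeRestrict
  obtain ⟨σ, hσ⟩ := LinearMap.exists_extend s
  have h1 : ∀ u, φ (σ (φ u)) = φ u := fun u => by
    have e1 := LinearMap.congr_fun hσ ⟨φ u, u, rfl⟩
    have e2 := congrArg Subtype.val (LinearMap.congr_fun hs ⟨φ u, u, rfl⟩)
    simp only [LinearMap.comp_apply, Submodule.subtype_apply] at e1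
    rw [e1]; exact e2
  have h2 : ∀ u, ψ (σ (φ u)) = ψ u := fun u => by
    have := hφψ (σ (φ u) - u) (σ (φ u) - u)
    rw [map_sub φ, h1, sub_self, dotProduct_zero, dotProduct_self_eq_zero, map_sub] at this
    exact sub_eq_zero.1 this
  have e1 : ∀ i, x i - x o = φ (Pi.single i 1) := fun i => by simp [φ]
  have e2 : ∀ i, y i - y o = ψ (Pi.single i 1) := fun i => by simp [ψ]
  refine (((Rep.lin (ψ ∘ₗ σ) (ψ ∘ₗ σ) (y o) (y o) (x o)).add
    (Rep.lin (LinearMap.id - φ ∘ₗ σ) (φ ∘ₗ σ) 0 0 (x o))).add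
    (Rep.lin LinearMap.id (LinearMap.id - φ ∘ₗ σ) 0 0 (x o))).congr ?_ ?_
  · funext i
    simp only [Pi.add_apply, LinearMap.comp_apply, LinearMap.sub_apply, LinearMap.id_apply, e1, h1,
      h2, ← e2, sub_self]
    simp [qq]
  · funext α β
    simp only [Pi.add_apply, LinearMap.comp_apply, LinearMap.sub_apply, LinearMap.id_apply, hφψ,
      sub_dotProduct, dotProduct_sub]
    simp [dl, Pi.single_apply, eq_comm]

def RamH (x : I → Fin d → ℝ) : Prop :=
  ∀ r : ℕ, 2 ≤ r → ∃ D : ℕ, 1 ≤ D ∧ ∀ c : (Fin D → ℝ) → Fin r,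
    ∃ y : I → Fin D → ℝ, Cong x y ∧ ∃ k, ∀ i, c (y i) = k

theorem necessity [Fintype I] [DecidableEq I] [Nonempty I] (h : RamH x) : TC x := by
  by_contra hT
  let S : Submodule ℚ ((I → TT2) × (Fin d → Fin d → ℝ)) :=
    { carrier := {p | Rep x p.1 p.2}
      add_mem' := fun a b => a.add b
      zero_mem' := Rep.const 0
      smul_mem' := fun q _ a => a.smul q }
  obtain ⟨f, hf, hS⟩ := S.exists_dual_map_eq_bot_of_notMem (x := (0, dl d)) hT inferInstance
  have hS' : ∀ v B, Rep x v B → f (v, B) = 0 := fun v B hv =>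
    (Submodule.eq_bot_iff _).1 hS _ ⟨(v, B), hv, rfl⟩
  set n := Fintype.card I with hn
  have hn0 : 0 < n := Fintype.card_pos
  have : NeZero (2 * n) := ⟨by omega⟩
  let β : I → TT2 → ℚ := fun i τ => n * (f (Pi.single i τ, 0) / f (0, dl d))
  have hβ : ∀ v : I → TT2, ∑ i, β i (v i) = n * (f (v, 0) / f (0, dl d)) := by
    intro v
    simp only [β, ← Finset.mul_sum, ← Finset.sum_div, ← map_sum]
    congr 3
    ext <;> simp [Prod.fst_sum, Prod.snd_sum]
  obtain ⟨ι⟩ : Nonempty ((I → ZMod (2 * n)) ↪ Fin (Fintype.card (I → ZMod (2 * n)) + 2)) :=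
    Function.Embedding.nonempty_of_card_le (by simp)
  obtain ⟨D, -, hD⟩ := h _ (Nat.le_add_left 2 (Fintype.card (I → ZMod (2 * n))))
  obtain ⟨y, hy, k, hk⟩ := hD fun p => ι fun i => ((⌊β i (qq p)⌋ : ℤ) : ZMod (2 * n))
  obtain ⟨o⟩ := ‹Nonempty I›
  have h1 : ∀ i, ∃ m : ℤ, ⌊β i (qq (y i))⌋ - ⌊β i (qq (y o))⌋ = 2 * n * m := by
    intro i
    have := congrFun (ι.injective ((hk o).trans (hk i).symm)) i
    have := (ZMod.intCast_eq_intCast_iff_dvd_sub _ _ _).1 this
    exact_mod_cast this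
  choose m hm using h1
  have h2 : ∑ i, β i (qq (y i)) = -n := by
    rw [hβ]
    have e := hS' _ _ (Rep.copy hy)
    have e2 : ((fun i => qq (y i)), dl d) = ((fun i => qq (y i)), 0) + (0, dl d) := by simp
    rw [e2, map_add] at e
    rw [eq_neg_of_add_eq_zero_left e, neg_div, div_self hf]; ring
  have h3 : ∑ i, β i (qq (y o)) = 0 := by
    rw [hβ fun _ => qq (y o), hS' _ _ (Rep.const _)]; simp
  have h4 : ∀ i, |β i (qq (y i)) - β i (qq (y o)) - 2 * n * m i| < 1 := by
    intro i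
    have e : ((⌊β i (qq (y i))⌋ : ℤ) : ℚ) - (⌊β i (qq (y o))⌋ : ℤ) = 2 * n * m i := by
      exact_mod_cast hm i
    have a1 := Int.floor_le (β i (qq (y i)))
    have a2 := Int.lt_floor_add_one (β i (qq (y i)))
    have a3 := Int.floor_le (β i (qq (y o)))
    have a4 := Int.lt_floor_add_one (β i (qq (y o)))
    rw [abs_lt]; constructor <;> linarith
  have h5 := (Finset.abs_sum_le_sum_abs _ _).trans_lt
    (Finset.sum_lt_sum_of_nonempty Finset.univ_nonempty fun i _ => h4 i)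
  rw [Finset.sum_sub_distrib, Finset.sum_sub_distrib, h2, h3, ← Finset.mul_sum] at h5
  simp only [Finset.sum_const, Finset.card_univ, ← hn, nsmul_eq_mul, mul_one] at h5
  have e : (-(n : ℚ) - 0 - 2 * n * ∑ i, (m i : ℚ)) = n * ((-1 - 2 * ∑ i, m i : ℤ) : ℚ) := by
    push_cast; ring
  have hn' : (0 : ℚ) < n := by exact_mod_cast hn0
  rw [e, abs_mul, abs_of_pos hn', mul_lt_iff_lt_one_right hn', ← Int.cast_abs] at h5
  have : |-1 - 2 * ∑ i, m i| < 1 := by exact_mod_cast h5
  rw [abs_lt] at this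
  omega

theorem sufficiency [Fintype I] [DecidableEq I] [Nonempty I] (hx : Function.Injective x)
    (h : TC x) : RamH x := by
  intro r _
  by_contra hc
  push Not at hc
  choose col hcol using fun n : ℕ => hc (n + 1) (by omega)
  obtain ⟨L, h1, k, h2⟩ := words hx h fun w =>
    col (FreeMonoid.toList w).length fun c => (FreeMonoid.toList w).getD c 0
  have key : ∀ (L : List (Let d)) (v : Fin d → ℝ),
      (L.map fun l => (l.2 ⬝ᵥ v) ^ 2).sum = v ⬝ᵥ ((L.map gram).sum *ᵥ v) := by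
    intro L v
    induction L with
    | nil => simp
    | cons l L ih =>
      simp only [List.map_cons, List.sum_cons, add_mulVec, dotProduct_add, ih]
      congr 1
      rw [gram, vecMulVec_mulVec]
      simp [sq, dotProduct_comm]
  obtain ⟨i, hi⟩ := hcol L.length (fun i c => (L.map fun l => ev x l i).getD c 0) (by
    intro i j
    have := key L (x i - x j)
    rw [h1, one_mulVec] at this
    rw [Fin.sum_univ_castSucc]
    simp only [Fin.val_last, Fin.val_castSucc]
    rw [List.getD_eq_default _ _ (by simp), List.getD_eq_default _ _ (by simp)]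
    rw [← Fin.sum_univ_fun_getElem] at this
    simp only [sub_self, ne_eq, OfNat.ofNat_ne_zero, not_false_eq_true, zero_pow, add_zero]
    convert this using 1
    · refine Finset.sum_congr rfl fun c _ => ?_
      simp [ev, dotProduct_sub]
    · simp [dotProduct, sq]) k
  apply hi
  have := h2 i
  have e : ∀ (l : List ℝ) (n : ℕ), l.length = n →
      col l.length (fun c => l.getD c 0) = col n fun c => l.getD c 0 := by
    rintro l _ rfl; rfl
  rw [← this, e _ L.length (by simp [wd])]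
  rfl

end Vale.Agent.P058
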