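import Vale.Agent.P058.Grp

namespace Vale.Agent.P058

open scoped commutatorElement
open Matrix

variable {I : Type} {d : ℕ} (x : I → Fin d → ℝ)

abbrev Mat (d : ℕ) := Matrix (Fin d) (Fin d) ℝ

abbrev Let (d : ℕ) := ℝ × (Fin d → ℝ)

def ev (l : Let d) (i : I) : ℝ := l.1 + l.2 ⬝ᵥ x i

def gram (l : Let d) : Mat d := vecMulVec l.2 l.2

lemma ev_add (l l' : Let d) (i : I) : ev x (l + l') i = ev x l i + ev x l' i := by
  simp [ev, add_dotProduct]; ring

lemma ev_smul (t : ℝ) (l : Let d) (i : I) : ev x (t • l) i = t * ev x l i := by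
  simp [ev, smul_dotProduct]; ring

lemma ev_neg (l : Let d) (i : I) : ev x (-l) i = - ev x l i := by
  simp [ev]; ring

lemma gram_smul (t : ℝ) (l : Let d) : gram (t • l) = t ^ 2 • gram l := by
  ext a b; simp [gram, vecMulVec_apply]; ring

lemma trace_gram (l : Let d) : trace (gram l) = l.2 ⬝ᵥ l.2 := by
  simp [gram, trace, dotProduct, vecMulVec_apply]

inductive Pos : (I → GG) → Mat d → Prop
  | const (f : GG) (hf : f ∈ FF) : Pos (fun _ => f) 0
  | letter (l : Let d) : Pos (fun i => g (ev x l i)) (gram l)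
  | mul {U V : I → GG} {Q Q' : Mat d} : Pos U Q → Pos V Q' → Pos (U * V) (Q + Q')

variable {x}

lemma Pos.congr {U V : I → GG} {Q Q' : Mat d} (h : Pos x U Q) (h1 : U = V) (h2 : Q = Q') :
    Pos x V Q' := h1 ▸ h2 ▸ h

lemma Pos.mem {U Q} (h : Pos x U Q) (i : I) : U i ∈ FF := by
  induction h with
  | const f hf => exact hf
  | letter l => exact g_mem _
  | mul _ _ h1 h2 => exact mul_mem h1 h2

lemma Pos.tr_nonneg {U Q} (h : Pos x U Q) : 0 ≤ trace Q := by
  induction h with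
  | const f hf => simp
  | letter l => rw [trace_gram]; exact Finset.sum_nonneg fun i _ => mul_self_nonneg _
  | mul _ _ h1 h2 => rw [trace_add]; linarith

lemma Pos.one : Pos x 1 0 := Pos.const 1 (one_mem _)

lemma Pos.conj {U Q} (h : Pos x U Q) (a : GG) : Pos x (fun i => a * U i * a⁻¹) Q := by
  obtain ⟨f, hf, c, rfl⟩ := decomp a
  have : Pos x (fun i => sg c * U i * (sg c)⁻¹) Q := by
    induction h with
    | const f hf => exact Pos.const _ (sg_conj_mem c hf)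
    | letter l =>
      refine ((Pos.letter (l + (c, 0))).mul (Pos.const _ (inv_mem (g_mem c)))).congr ?_ ?_
      · funext i; simp [sg_conj, ev_add, ev, add_right_comm]
      · simp [gram]
    | mul _ _ h1 h2 => refine (h1.mul h2).congr ?_ rfl; funext i; simp
  refine (((Pos.const f hf).mul this).mul (Pos.const _ (inv_mem hf))).congr ?_ (by simp)
  funext i; simp [mul_assoc]

lemma Pos.psi {U Q} (h : Pos x U Q) (t : ℝ) : Pos x (fun i => psi t (U i)) (t ^ 2 • Q) := by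
  induction h with
  | const f hf => exact (Pos.const _ (psi_FF t hf)).congr rfl (by simp)
  | letter l =>
    refine (Pos.letter (t • l)).congr ?_ (gram_smul t l)
    funext i; rw [psi_g, ev_smul]
  | mul _ _ h1 h2 => refine (h1.mul h2).congr ?_ (by simp); funext i; simp

lemma Pos.sum {α : Type} (s : Finset α) (Q : α → Mat d) (h : ∀ a ∈ s, ∃ U, Pos x U (Q a)) :
    ∃ U, Pos x U (∑ a ∈ s, Q a) := by
  classical
  induction s using Finset.induction_on with
  | empty => exact ⟨1, by simpa using Pos.one⟩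
  | insert a s ha ih =>
    obtain ⟨U, hU⟩ := h a (by simp)
    obtain ⟨V, hV⟩ := ih fun b hb => h b (by simp [hb])
    exact ⟨U * V, by rw [Finset.sum_insert ha]; exact hU.mul hV⟩

lemma Pos.compl {U Q} (h : Pos x U Q) : ∃ X, Pos x X (trace Q • (1 : Mat d) - Q) := by
  induction h with
  | const f hf => exact ⟨1, by simpa using Pos.one⟩
  | letter l =>
    obtain ⟨X, hX⟩ := Pos.sum (x := x) (Finset.univ : Finset (Fin d × Fin d))
      (fun p => gram ((√2)⁻¹ • ((0 : ℝ), (Pi.single p.1 (l.2 p.2) - Pi.single p.2 (l.2 p.1) :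
        Fin d → ℝ)))) (fun p _ => ⟨_, Pos.letter _⟩)
    refine ⟨X, hX.congr rfl ?_⟩
    simp only [gram_smul, ← Finset.smul_sum]
    rw [inv_pow, Real.sq_sqrt (by norm_num), trace_gram]
    ext a b
    simp only [gram, Matrix.smul_apply, Matrix.sum_apply, vecMulVec_apply, Matrix.sub_apply,
      Pi.sub_apply, Pi.single_apply, Fintype.sum_prod_type, sub_mul, mul_sub, ite_mul, mul_ite,
      zero_mul, mul_zero, Finset.sum_sub_distrib, Finset.sum_ite_eq, Finset.mem_univ, if_true,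
      Matrix.one_apply, dotProduct, smul_eq_mul, Finset.sum_ite_irrel, Finset.sum_const_zero]
    by_cases hab : a = b
    · subst hab
      simp only [if_true]
      have : ∑ u, ∑ v, (if a = v then if a = v then l.2 u * l.2 u else 0 else 0) =
          ∑ u, l.2 u * l.2 u := by
        refine Finset.sum_congr rfl fun u _ => ?_
        rw [Finset.sum_eq_single a] <;> simp +contextual [eq_comm]
      simp [Finset.sum_ite_eq]
      ring
    · have hba : ¬ b = a := fun h => hab h.symm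
      simp [hab, hba]
      ring
  | mul _ _ h1 h2 =>
    obtain ⟨X, hX⟩ := h1
    obtain ⟨Y, hY⟩ := h2
    exact ⟨X * Y, (hX.mul hY).congr rfl (by rw [trace_add, add_smul]; abel)⟩

lemma Pos.scalar (s : ℝ) (hs : 0 ≤ s) : ∃ X, Pos x X (s • (1 : Mat d)) := by
  obtain ⟨X, hX⟩ := Pos.sum (x := x) (Finset.univ : Finset (Fin d))
    (fun a => gram ((√s) • ((0 : ℝ), (Pi.single a 1 : Fin d → ℝ)))) (fun p _ => ⟨_, Pos.letter _⟩)
  refine ⟨X, hX.congr rfl ?_⟩
  simp only [gram_smul, ← Finset.smul_sum, Real.sq_sqrt hs]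
  congr 1
  ext a b
  simp [gram, Matrix.sum_apply, vecMulVec_apply, Pi.single_apply, Matrix.one_apply, eq_comm]

variable (x) in
def Pr (lam : I → GG) (D : Mat d) (c : ℝ) : Prop :=
  ∃ V Y QY, Pos x V (QY + D) ∧ Pos x Y QY ∧ lam = V * Y⁻¹ ∧ trace QY ≤ c

lemma Pr.congr {l l' D D' c c'} (h : Pr x l D c) (h1 : l = l') (h2 : D = D') (h3 : c ≤ c') :
    Pr x l' D' c' := by
  obtain ⟨V, Y, Q, a, b, e, f⟩ := h
  exact ⟨V, Y, Q, h2 ▸ a, b, h1 ▸ e, f.trans h3⟩

lemma Pr.mem {l D c} (h : Pr x l D c) (i : I) : l i ∈ FF := by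
  obtain ⟨V, Y, Q, a, b, rfl, f⟩ := h
  exact mul_mem (a.mem i) (inv_mem (b.mem i))

lemma Pr.one : Pr x 1 0 0 := ⟨1, 1, 0, by simpa using Pos.one, Pos.one, by simp, by simp⟩

lemma Pr.of_pos {U Q} (h : Pos x U Q) : Pr x U Q 0 :=
  ⟨U, 1, 0, by simpa, Pos.one, by simp, by simp⟩

lemma Pr.mul {l D c} (h : Pr x l D c) : ∃ u : I → GG, (∀ i, u i ∈ FF) ∧
    ∀ l' D' c', Pr x l' D' c' → Pr x (l * (u * l' * u⁻¹)) (D + D') (c + c') := by
  obtain ⟨V, Y, Q, a, b, rfl, f⟩ := h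
  refine ⟨Y, b.mem, ?_⟩
  rintro _ D' c' ⟨V', Y', Q', a', b', rfl, f'⟩
  exact ⟨V * V', Y * Y', Q + Q', (a.mul a').congr rfl (by abel), b.mul b', by group,
    by rw [trace_add]; linarith⟩

lemma Pr.inv {l D c} (h : Pr x l D c) : Pr x l⁻¹ (-D) (c + trace D) := by
  obtain ⟨V, Y, Q, a, b, rfl, f⟩ := h
  exact ⟨Y, V, Q + D, by simpa, a, by group, by rw [trace_add]; linarith⟩

lemma Pr.conj {l D c} (h : Pr x l D c) (a : GG) : Pr x (fun i => a * l i * a⁻¹) D c := by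
  obtain ⟨V, Y, Q, h1, h2, rfl, f⟩ := h
  exact ⟨_, _, Q, h1.conj a, h2.conj a, by funext i; simp; group, f⟩

lemma Pr.psi {l D c} (h : Pr x l D c) (t : ℝ) :
    Pr x (fun i => psi t (l i)) (t ^ 2 • D) (t ^ 2 * c) := by
  obtain ⟨V, Y, Q, h1, h2, rfl, f⟩ := h
  exact ⟨_, _, t ^ 2 • Q, (h1.psi t).congr rfl (smul_add _ _ _), h2.psi t, by funext i; simp,
    by rw [trace_smul, smul_eq_mul]; gcongr⟩

lemma Pr.mul_single [DecidableEq I] {l D c} (h : Pr x l D c) {k : I} {y D' c'}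
    (h' : Pr x (Pi.mulSingle k y) D' c') : Pr x (l * Pi.mulSingle k y) (D + D') (c + c') := by
  obtain ⟨u, _, hu⟩ := h.mul
  refine (hu _ _ _ (h'.conj (u k)⁻¹)).congr ?_ rfl le_rfl
  funext i
  by_cases hi : i = k
  · subst hi; simp [mul_assoc]
  · simp [Pi.mulSingle_eq_of_ne hi]

variable (x) in
def Good (N : I → Subgroup GG) : Prop :=
  ∀ η : ℝ, 0 < η → ∃ l t, 0 < t ∧ Pr x l (t • 1) (η * t) ∧ ∀ i, l i ∈ N i

variable (x) in
def Pm (N : Subgroup GG) [N.Normal] (w : I → GG ⧸ N) (D : Mat d) (c : ℝ) : Prop :=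
  ∃ l, Pr x l D c ∧ ∀ i, QuotientGroup.mk' N (l i) = w i

lemma Pm.mul {N : Subgroup GG} [N.Normal] {w w' : I → GG ⧸ N} {D D' c c'} (h : Pm x N w D c)
    (h' : Pm x N w' D' c') (hc : ∀ i a, Commute a (w' i)) : Pm x N (w * w') (D + D') (c + c') := by
  obtain ⟨l, hl, e⟩ := h
  obtain ⟨l', hl', e'⟩ := h'
  obtain ⟨u, _, hu⟩ := hl.mul
  refine ⟨_, hu _ _ _ hl', fun i => ?_⟩
  simp only [Pi.mul_apply, Pi.inv_apply, map_mul, map_inv, e, e']
  rw [(hc i _).mul_inv_cancel]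

lemma Pm.pow {N : Subgroup GG} [N.Normal] {w : I → GG ⧸ N} {D c} (h : Pm x N w D c)
    (hc : ∀ i a, Commute a (w i)) (K : ℕ) : Pm x N (w ^ K) ((K : ℝ) • D) (K * c) := by
  induction K with
  | zero => exact ⟨1, Pr.one.congr rfl (by simp) (by simp), by simp⟩
  | succ K ih =>
    obtain ⟨l, hl, e⟩ := ih.mul h hc
    exact ⟨l, hl.congr rfl (by push_cast; rw [add_smul, one_smul]) (by push_cast; linarith),
      by rw [pow_succ]; exact e⟩

lemma step2 (k : ℕ) (hk : 2 ≤ k) (h : Good x fun _ => lcs k) : Good x fun _ => lcs (k + 1) := by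
  intro η hη
  obtain ⟨l, t, ht, hl, hN⟩ := h (η / 2) (by positivity)
  obtain ⟨M, hM⟩ := exists_nat_ge (3 + 2 * d / η)
  have hd : 0 ≤ 2 * d / η := by positivity
  have hM1 : (1 : ℝ) ≤ M := by linarith
  have h1 : Pm x (lcs (k + 1)) (fun i => QuotientGroup.mk' _ (l i)) (t • 1) (η / 2 * t) :=
    ⟨l, hl, fun _ => rfl⟩
  have h2 := h1.pow (fun i a => central k (hN i) a) (M ^ (k + 1))
  have h3 : Pm x (lcs (k + 1)) (fun i => (QuotientGroup.mk' _ (psi M (l i)))⁻¹) _ _ :=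
    ⟨_, (hl.psi M).inv, fun i => by simp⟩
  obtain ⟨l', hl', e⟩ := h2.mul h3 fun i a => (central k (psi_lcs_mem M k (hN i)) a).inv_right
  have hK : (M : ℝ) ^ 2 * M ≤ (M : ℝ) ^ (k + 1) := by
    rw [← pow_succ]; exact pow_le_pow_right₀ hM1 (by omega)
  have hM2 : (0 : ℝ) < (M : ℝ) ^ 2 := by positivity
  have hK2 : (M : ℝ) ^ 2 * (3 + 2 * d / η) ≤ (M : ℝ) ^ (k + 1) := le_trans (by gcongr) hK
  refine ⟨l', ((M : ℝ) ^ (k + 1) - M ^ 2) * t, mul_pos (by nlinarith) ht, hl'.congr rfl ?_ ?_, ?_⟩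
  · push_cast; rw [smul_smul, smul_smul, ← sub_eq_add_neg, ← sub_smul, sub_mul]
  · push_cast
    rw [trace_smul, trace_smul, trace_one, Fintype.card_fin, smul_eq_mul, smul_eq_mul]
    have : η / 2 * ((M : ℝ) ^ 2 * (3 + 2 * d / η)) ≤ η / 2 * (M : ℝ) ^ (k + 1) := by gcongr
    have e1 : η / 2 * ((M : ℝ) ^ 2 * (3 + 2 * d / η)) = (M : ℝ) ^ 2 * (3 * η / 2 + d) := by
      field_simp
    rw [e1] at this
    nlinarith
  · intro i
    have := e i
    simp only [Pi.mul_apply, Pi.pow_apply, psi_lcs M k (hN i), mul_inv_cancel] at this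
    exact (QuotientGroup.eq_one_iff _).1 this

end Vale.Agent.P058
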