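import Vale.Agent.P058.Step1

namespace Vale.Agent.P058

open scoped commutatorElement
open Matrix

variable {I : Type} [Fintype I] [DecidableEq I] {d : ℕ} {x : I → Fin d → ℝ}

set_option linter.unusedSectionVars false

lemma ore {U V Q Q'} (hU : Pos x U Q) (hV : Pos x V Q') :
    ∃ X Y QX QY, Pos x X QX ∧ Pos x Y QY ∧ U * X = V * Y := by
  have : ∀ A : Finset I, ∃ X Y QX QY, Pos x X QX ∧ Pos x Y QY ∧
      ∀ i ∈ A, (U * X) i = (V * Y) i := by
    intro A
    induction A using Finset.induction_on with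
    | empty => exact ⟨1, 1, 0, 0, Pos.one, Pos.one, by simp⟩
    | insert j A _ ih =>
      obtain ⟨X, Y, QX, QY, hX, hY, e⟩ := ih
      have hc := Pos.const (x := x) _ (inv_mem ((hU.mul hX).mem j))
      refine ⟨_, _, _, _, (hX.mul hc).mul (hV.mul hY), (hY.mul hc).mul (hU.mul hX), ?_⟩
      intro i hi
      rcases Finset.mem_insert.1 hi with rfl | hi
      · simp only [Pi.mul_apply]; group
      · have := e i hi
        simp only [Pi.mul_apply, ← mul_assoc] at this ⊢
        rw [this, mul_assoc _ (V i), mul_assoc _ (U i), this]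
  obtain ⟨X, Y, QX, QY, hX, hY, e⟩ := this Finset.univ
  exact ⟨X, Y, QX, QY, hX, hY, funext fun i => e i (Finset.mem_univ i)⟩

variable (x) in
def Lam : Subgroup (I → GG) := Subgroup.closure (Set.range fun l : Let d => fun i => g (ev x l i))

lemma Lam_gen (l : Let d) : (fun i => g (ev x l i)) ∈ Lam x := Subgroup.subset_closure ⟨l, rfl⟩

lemma Lam_pr {l} (hl : l ∈ Lam x) : ∃ D c, Pr x l D c := by
  induction hl using Subgroup.closure_induction with
  | mem _ h => obtain ⟨l, rfl⟩ := h; exact ⟨_, _, Pr.of_pos (Pos.letter l)⟩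
  | one => exact ⟨_, _, Pr.one⟩
  | inv _ _ h => obtain ⟨D, c, h⟩ := h; exact ⟨_, _, h.inv⟩
  | mul _ _ _ _ h1 h2 =>
    obtain ⟨D, c, V, Y, Q, a, b, rfl, -⟩ := h1
    obtain ⟨D', c', V', Y', Q', a', b', rfl, -⟩ := h2
    obtain ⟨A, B, QA, QB, hA, hB, e⟩ := ore b a'
    refine ⟨(Q + D + QA) - (Q' + QB), _, V * A, Y' * B, Q' + QB,
      (a.mul hA).congr rfl (by abel), b'.mul hB, ?_, le_rfl⟩
    have : A = Y⁻¹ * (V' * B) := by rw [← e]; group
    rw [this]; group

lemma Lam_const {f} (hf : f ∈ FF) : (fun _ => f : I → GG) ∈ Lam x := by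
  induction hf using Subgroup.closure_induction with
  | mem _ h => obtain ⟨t, rfl⟩ := h; simpa [ev] using Lam_gen (x := x) (t, 0)
  | one => exact one_mem _
  | inv _ _ h => exact inv_mem h
  | mul _ _ _ _ h1 h2 => exact mul_mem h1 h2

lemma Lam_sg (a : Let d) {l} (hl : l ∈ Lam x) :
    (fun i => sg (ev x a i)) * l * (fun i => sg (ev x a i))⁻¹ ∈ Lam x := by
  induction hl using Subgroup.closure_induction with
  | mem _ h =>
    obtain ⟨l, rfl⟩ := h
    convert mul_mem (Lam_gen (x := x) (l + a)) (inv_mem (Lam_gen a)) using 1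
    funext i; simp [sg_conj, ev_add]
  | one => simp
  | inv _ _ h => convert inv_mem h using 1; group
  | mul _ _ _ _ h1 h2 => convert mul_mem h1 h2 using 1; group

lemma sg_norm (a : Let d) :
    (fun i => sg (ev x a i)) ∈ Subgroup.normalizer (Lam x : Set (I → GG)) := by
  rw [Subgroup.mem_normalizer_iff]
  intro l
  refine ⟨Lam_sg a, fun h => ?_⟩
  have := Lam_sg (-a) h
  have e : (fun i => sg (ev x (-a) i)) = (fun i => sg (ev x a i))⁻¹ := by
    funext i; simp [ev_neg, sg_neg]
  rw [e] at this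
  simpa [mul_assoc] using this

lemma exists_let (hx : Function.Injective x) {j k : I} (h : j ≠ k) :
    ∃ a : Let d, ev x a k = 1 ∧ ev x a j = 0 := by
  have : x k ≠ x j := fun e => h (hx e).symm
  obtain ⟨α, hα⟩ := Function.ne_iff.1 this
  have h1 : x k α - x j α ≠ 0 := sub_ne_zero.2 hα
  refine ⟨(-(x j α) / (x k α - x j α), Pi.single α (x k α - x j α)⁻¹), ?_, ?_⟩
  · simp [ev]; field_simp; ring
  · simp [ev]; field_simp; ring

lemma exists_norm (hx : Function.Injective x) {j k : I} (h : j ≠ k) (y : GG) :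
    ∃ u ∈ Subgroup.normalizer (Lam x : Set (I → GG)), u j = 1 ∧ u k = y := by
  obtain ⟨a, h1, h2⟩ := exists_let hx h
  induction y using GG_ind with
  | h1 s => exact ⟨_, sg_norm (s • a), by simp [ev_smul, h2], by simp [ev_smul, h1]⟩
  | h2 s =>
    refine ⟨_, mul_mem (Subgroup.le_normalizer (inv_mem (Lam_gen (s • a)))) (sg_norm (s • a)),
      by simp [ev_smul, h2], by simp [ev_smul, h1, g]⟩
  | h3 a b ha hb =>
    obtain ⟨u, hu, e1, e2⟩ := ha
    obtain ⟨v, hv, e3, e4⟩ := hb
    exact ⟨u * v, mul_mem hu hv, by simp [e1, e3], by simp [e2, e4]⟩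

lemma single_aux (hx : Function.Injective x) (k : I) (A : Finset I) (hA : k ∉ A) {y : GG}
    (hy : y ∈ lcs (A.card + 1)) : ∃ l ∈ Lam x, l k = y ∧ ∀ j ∈ A, l j = 1 := by
  induction A using Finset.induction_on generalizing y with
  | empty => exact ⟨_, Lam_const (lcs_one_le hy), rfl, by simp⟩
  | insert j A hj ih =>
    rw [Finset.card_insert_of_notMem hj, lcs_succ, Subgroup.commutator_def] at hy
    induction hy using Subgroup.closure_induction with
    | mem _ h =>
      obtain ⟨p, hp, q, _, rfl⟩ := h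
      obtain ⟨l, hl, e1, e2⟩ := ih (fun h => hA (by simp [h])) hp
      obtain ⟨u, hu, e3, e4⟩ := exists_norm hx (j := j) (k := k)
        (fun h => hA (by simp [h])) q
      refine ⟨l * (u * l⁻¹ * u⁻¹), mul_mem hl
        ((Subgroup.mem_normalizer_iff.1 hu _).1 (inv_mem hl)), ?_, ?_⟩
      · simp [e1, e4, commutatorElement_def, mul_assoc]
      · intro i hi
        rcases Finset.mem_insert.1 hi with rfl | hi
        · simp [e3]
        · simp [e2 i hi]
    | one => exact ⟨1, one_mem _, rfl, fun _ _ => rfl⟩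
    | inv _ _ h =>
      obtain ⟨l, hl, e1, e2⟩ := h
      exact ⟨l⁻¹, inv_mem hl, by simp [e1], fun i hi => by simp [e2 i hi]⟩
    | mul _ _ _ _ h1 h2 =>
      obtain ⟨l, hl, e1, e2⟩ := h1
      obtain ⟨l', hl', e3, e4⟩ := h2
      exact ⟨l * l', mul_mem hl hl', by simp [e1, e3], fun i hi => by simp [e2 i hi, e4 i hi]⟩

variable (I) in
def HH : Subgroup GG := lcs (Fintype.card I + 1)

instance : (HH I).Normal := lcs_normal _

lemma HH_le : HH I ≤ FF := lcs_le_FF (by omega)

lemma single (hx : Function.Injective x) (k : I) {y : GG} (hy : y ∈ HH I) :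
    ∃ D c, Pr x (Pi.mulSingle k y) D c := by
  obtain ⟨l, hl, e1, e2⟩ := single_aux hx k (Finset.univ.erase k) (by simp) (y := y)
    (Subgroup.lowerCentralSeries_antitone _ (by simp) hy)
  have : l = Pi.mulSingle k y := by
    funext i
    by_cases hi : i = k
    · subst hi; simp [e1]
    · simp [hi, e2 i (by simp [hi])]
  exact this ▸ Lam_pr hl

variable (x) in
def Zc (k : I) (y : GG) (c : ℝ) : Prop := Pr x (Pi.mulSingle k y) 0 c

lemma Zc.mul {k y y' c c'} (h : Zc x k y c) (h' : Zc x k y' c') : Zc x k (y * y') (c + c') :=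
  (h.mul_single h').congr (Pi.mulSingle_mul (f := fun _ => GG) _ _ _).symm (by simp) le_rfl

lemma Zc.inv {k y c} (h : Zc x k y c) : Zc x k y⁻¹ c :=
  (Pr.inv h).congr (Pi.mulSingle_inv (f := fun _ => GG) _ _).symm (by simp) (by simp)

lemma Zc.one {k} : Zc x k 1 0 := Pr.one.congr (by simp) rfl le_rfl

lemma Zc.mono {k y c c'} (h : Zc x k y c) (h' : c ≤ c') : Zc x k y c' := h.congr rfl rfl h'

lemma conj_single (k : I) (a y : GG) :
    (fun i => a * (Pi.mulSingle k y : I → GG) i * a⁻¹) = Pi.mulSingle k (a * y * a⁻¹) := by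
  funext i
  by_cases hi : i = k
  · subst hi; simp
  · simp [hi]

lemma Zc.conj {k y c} (h : Zc x k y c) (a : GG) : Zc x k (a * y * a⁻¹) c :=
  (Pr.conj h a).congr (conj_single k a y) rfl le_rfl

lemma Zc_comm (hx : Function.Injective x) (k : I) {y : GG} (hy : y ∈ HH I) :
    ∃ C, ∀ h, Zc x k ⁅y, h⁆ C := by
  obtain ⟨D, c, hp⟩ := single hx k hy
  refine ⟨c + (c + trace D), fun h => ?_⟩
  have h1 : Pr x (Pi.mulSingle k (h * y⁻¹ * h⁻¹)) (-D) (c + trace D) :=
    (hp.inv.conj h).congr (by rw [← Pi.mulSingle_inv (f := fun _ => GG), conj_single]) rfl le_rfl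
  refine (hp.mul_single h1).congr ?_ (by simp) le_rfl
  rw [← Pi.mulSingle_mul (f := fun _ => GG)]
  simp [commutatorElement_def, mul_assoc]

lemma step_single {N : I → Subgroup GG} [∀ i, (N i).Normal] (hN : Good x N) (k : I)
    (K : Subgroup GG) [K.Normal]
    (hc : ∀ f ∈ FF, ∀ y ∈ N k, Commute (QuotientGroup.mk' K f) (QuotientGroup.mk' K y))
    (hz : ∀ y ∈ N k, ∀ ε : ℝ, 0 < ε → ∃ hs : List GG, hs ≠ [] ∧ ∃ z, Zc x k z (ε * hs.length) ∧
      QuotientGroup.mk' K z = (hs.map fun h => QuotientGroup.mk' K (h * y * h⁻¹)).prod) :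
    Good x (Function.update N k K) := by
  intro η hη
  obtain ⟨l, t, ht, hl, hm⟩ := hN (η / 2) (by positivity)
  obtain ⟨hs, hne, z, hz1, hz2⟩ := hz _ (hm k) (η / 2 * t) (by positivity)
  have key : ∀ hs : List GG, ∃ l', Pr x l' ((hs.length * t) • 1) (η / 2 * t * hs.length) ∧
      (∀ i, l' i ∈ N i) ∧ QuotientGroup.mk' K (l' k) =
        (hs.map fun h => QuotientGroup.mk' K (h * l k * h⁻¹)).prod := by
    intro hs
    induction hs with
    | nil => exact ⟨1, Pr.one.congr rfl (by simp) (by simp), fun i => one_mem _, by simp⟩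
    | cons h hs ih =>
      obtain ⟨l', h1, h2, h3⟩ := ih
      obtain ⟨u, hu, hmul⟩ := (hl.conj h).mul
      refine ⟨_, (hmul _ _ _ h1).congr rfl ?_ ?_, fun i => ?_, ?_⟩
      · simp only [List.length_cons]; push_cast; rw [← add_smul]; congr 1; ring
      · simp only [List.length_cons]; push_cast; linarith
      · exact mul_mem (Subgroup.Normal.conj_mem inferInstance _ (hm i) _)
          (Subgroup.Normal.conj_mem inferInstance _ (h2 i) _)
      · simp only [Pi.mul_apply, Pi.inv_apply, List.map_cons, List.prod_cons, ← h3]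
        rw [map_mul, map_mul _ (u k * l' k), map_mul _ (u k), map_inv,
          (hc _ (hu k) _ (h2 k)).mul_inv_cancel]
  obtain ⟨l', h1, h2, h3⟩ := key hs
  have hlen : (0 : ℝ) < hs.length := by exact_mod_cast List.length_pos_iff.2 hne
  refine ⟨_, hs.length * t, by positivity,
    (h1.mul_single hz1.inv).congr rfl (by simp) (le_of_eq (by ring)), fun i => ?_⟩
  by_cases hi : i = k
  · subst hi
    simp only [Function.update_self, Pi.mul_apply, Pi.mulSingle_eq_same]
    rw [← QuotientGroup.eq_one_iff, ← QuotientGroup.mk'_apply, map_mul, map_inv, h3, hz2,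
      mul_inv_cancel]
  · simp [hi, h2 i]

end Vale.Agent.P058
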