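import Vale.Agent.P058.Pos

namespace Vale.Agent.P058

open scoped commutatorElement TensorProduct
open Matrix

abbrev Q2 := GG ⧸ lcs 2

def Cen : Type := Subgroup.center Q2

noncomputable instance : CommGroup Cen :=
  { (inferInstance : Group (Subgroup.center Q2)) with
    mul_comm := fun a b => Subtype.ext (Subgroup.mem_center_iff.1 b.2 a.1) }

lemma cen2 (a b c : Q2) : Commute c ⁅a, b⁆ := by
  obtain ⟨a, rfl⟩ := QuotientGroup.mk'_surjective _ a
  obtain ⟨b, rfl⟩ := QuotientGroup.mk'_surjective _ b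
  rw [← map_commutatorElement]
  exact central 1 (Subgroup.commutator_mem_commutator (H₁ := ⊤) (H₂ := ⊤) trivial trivial) c

noncomputable def pi2 : GG →* Q2 := QuotientGroup.mk' (lcs 2)

noncomputable def b0 (s t : ℝ) : Cen :=
  ⟨⁅pi2 (sg s), pi2 (rh (-t))⁆, Subgroup.mem_center_iff.2 fun c => cen2 _ _ c⟩

def Cen.val (c : Cen) : Q2 := Subtype.val c

lemma Cen.val_mul (a b : Cen) : (a * b).val = a.val * b.val := rfl
lemma Cen.val_one : (1 : Cen).val = 1 := rfl
lemma Cen.ext {a b : Cen} (h : a.val = b.val) : a = b := Subtype.ext h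
lemma Cen.comm (a : Cen) (c : Q2) : Commute c a.val := Subgroup.mem_center_iff.1 a.2 c

lemma b0_val (s t : ℝ) : (b0 s t).val = pi2 (g (s + t) * (g s)⁻¹ * (g t)⁻¹) := by
  have h1 : g (s + t) * (g s)⁻¹ * (g t)⁻¹ = ⁅sg s, sg t * rh (-t)⁆ := by
    rw [add_comm s t, ← sg_conj, rh_neg]; rfl
  rw [h1, map_commutatorElement, map_mul, comm_right (cen2 _ _ _),
    ((sg_comm s t).map pi2).commutator_eq, one_mul]
  rfl

noncomputable def bb : ℝ →+ ℝ →+ Additive Cen :=
  AddMonoidHom.mk' (fun s => AddMonoidHom.mk' (fun t => Additive.ofMul (b0 s t)) (fun t t' => by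
    rw [← ofMul_mul]; congr 1; apply Cen.ext
    show ⁅pi2 (sg s), pi2 (rh (-(t + t')))⁆ = ⁅pi2 (sg s), pi2 (rh (-t))⁆ * ⁅pi2 (sg s), pi2 (rh (-t'))⁆
    rw [neg_add, rh_add, map_mul, comm_right (cen2 _ _ _)]))
    (fun s s' => by
      ext t
      show Additive.ofMul (b0 (s + s') t) = Additive.ofMul (b0 s t) + Additive.ofMul (b0 s' t)
      rw [← ofMul_mul, mul_comm]; congr 1; apply Cen.ext
      show ⁅pi2 (sg (s + s')), pi2 (rh (-t))⁆ =
        ⁅pi2 (sg s'), pi2 (rh (-t))⁆ * ⁅pi2 (sg s), pi2 (rh (-t))⁆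
      rw [sg_add, map_mul, comm_left (cen2 _ _ _)])

lemma bb_apply (s t : ℝ) : bb s t = Additive.ofMul (b0 s t) := rfl

lemma bb_rat (q : ℚ) (s t : ℝ) : bb (q • s) t = bb s (q • t) := by
  have hd : (q.den : ℝ) ≠ 0 := by exact_mod_cast q.den_nz
  have h1 : t = (q.den : ℤ) • (t / q.den) := by simp; field_simp
  have h2 : (q.den : ℤ) • q • s = q.num • s := by
    simp only [Rat.smul_def, zsmul_eq_mul, Int.cast_natCast]
    rw [Rat.cast_def]; field_simp
  have h3 : q.num • (t / q.den) = q • t := by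
    simp only [Rat.smul_def, zsmul_eq_mul]
    rw [Rat.cast_def]; field_simp
  calc bb (q • s) t = bb (q • s) ((q.den : ℤ) • (t / q.den)) := by rw [← h1]
    _ = bb ((q.den : ℤ) • q • s) (t / q.den) := by
      rw [map_zsmul, map_zsmul bb, AddMonoidHom.zsmul_apply]
    _ = bb s (q.num • (t / q.den)) := by
      rw [h2, map_zsmul, map_zsmul (bb s), AddMonoidHom.zsmul_apply]
    _ = _ := by rw [h3]

noncomputable def bT : ℝ ⊗[ℚ] ℝ →+ Additive Cen := TensorProduct.liftAddHom bb bb_rat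

lemma bT_tmul (s t : ℝ) : bT (s ⊗ₜ t) = bb s t := rfl

variable {I : Type} {d : ℕ} (x : I → Fin d → ℝ)

def Ch (w : I → Additive Cen) (D : Mat d) : Prop :=
  ∀ η : ℝ, 0 < η → Pm x (lcs 2) (fun i => (Additive.toMul (w i)).val) D η

variable {x}

lemma Ch.add {w w' D D'} (h : Ch x w D) (h' : Ch x w' D') : Ch x (w + w') (D + D') := by
  intro η hη
  obtain ⟨l, hl, e⟩ := (h (η / 2) (by positivity)).mul (h' (η / 2) (by positivity))
    fun i a => Cen.comm _ a
  exact ⟨l, hl.congr rfl rfl (by linarith), e⟩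

lemma Ch.zero : Ch x 0 0 := fun η hη => ⟨1, Pr.one.congr rfl rfl hη.le, fun i => by
  simp [Cen.val_one]⟩

lemma Ch.congr {w w' D D'} (h : Ch x w D) (h1 : w = w') (h2 : D = D') : Ch x w' D' := h1 ▸ h2 ▸ h

lemma Ch.sum {α : Type} (s : Finset α) (w : α → I → Additive Cen) (D : α → Mat d)
    (h : ∀ a ∈ s, Ch x (w a) (D a)) : Ch x (∑ a ∈ s, w a) (∑ a ∈ s, D a) := by
  classical
  induction s using Finset.induction_on with
  | empty => simpa using Ch.zero
  | insert a s ha ih =>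
    rw [Finset.sum_insert ha, Finset.sum_insert ha]
    exact (h a (by simp)).add (ih fun b hb => h b (by simp [hb]))

def sym (l l' : Let d) : Mat d := vecMulVec l.2 l'.2 + vecMulVec l'.2 l.2

lemma basic (l l' : Let d) (q : ℚ) (hq : q ≠ 0) :
    Pm x (lcs 2) (fun i => (Additive.toMul (bb (ev x l i) (ev x l' i))).val) (sym l l')
      (q ^ 2 * (l.2 ⬝ᵥ l.2) + (q : ℝ)⁻¹ ^ 2 * (l'.2 ⬝ᵥ l'.2)) := by
  have hq' : (q : ℝ) ≠ 0 := by exact_mod_cast hq
  refine ⟨_, ⟨_, _, gram ((q : ℝ)⁻¹ • l') + gram ((q : ℝ) • l),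
    (Pos.letter ((q : ℝ) • l + (q : ℝ)⁻¹ • l')).congr rfl ?_,
    (Pos.letter _).mul (Pos.letter _), rfl, ?_⟩, fun i => ?_⟩
  · ext a b
    simp [gram, sym, vecMulVec_apply]
    field_simp; ring
  · rw [trace_add, gram_smul, gram_smul, trace_smul, trace_smul, trace_gram, trace_gram]
    simp only [smul_eq_mul]; linarith
  · have : bb (ev x l i) (ev x l' i) = bb ((q : ℝ) * ev x l i) ((q : ℝ)⁻¹ * ev x l' i) := by
      rw [← Rat.smul_def, bb_rat, Rat.smul_def, mul_inv_cancel_left₀ hq']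
    simp only [this, bb_apply, toMul_ofMul, b0_val, Pi.mul_apply, Pi.inv_apply, ev_add, ev_smul,
      _root_.mul_inv_rev, mul_assoc]
    rfl

def LL (a : Option (Fin d)) (r : ℝ) : Let d := a.elim (r, 0) fun α => (0, Pi.single α r)

variable (x) in
def pp (i : I) (a : Option (Fin d)) : ℝ := a.elim 1 (x i)

lemma ev_LL (a : Option (Fin d)) (r : ℝ) (i : I) : ev x (LL a r) i = pp x i a * r := by
  cases a <;> simp [ev, LL, pp, mul_comm]

lemma nrm_LL (a : Option (Fin d)) (r : ℝ) : (LL a r).2 ⬝ᵥ (LL a r).2 ≤ r ^ 2 := by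
  cases a
  · simp [LL]; positivity
  · simp [LL, sq]

lemma exists_q (r η : ℝ) (hη : 0 < η) : ∃ q : ℚ, 0 < q ∧ (q : ℝ) ^ 2 * (1 + r ^ 2) ≤ η := by
  obtain ⟨q, h1, h2⟩ := exists_rat_btwn (show (0 : ℝ) < min 1 (η / (1 + r ^ 2)) by positivity)
  refine ⟨q, by exact_mod_cast h1, ?_⟩
  have h3 : (q : ℝ) ≤ 1 := (h2.trans_le (min_le_left _ _)).le
  have h4 : (q : ℝ) * (1 + r ^ 2) ≤ η := by
    rw [← le_div_iff₀ (by positivity)]; exact (h2.trans_le (min_le_right _ _)).le
  have h5 : (0 : ℝ) < 1 + r ^ 2 := by positivity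
  nlinarith [mul_pos h1 h5]

lemma C3 (a b : Option (Fin d)) (hab : a = none ∨ b = none) (τ : ℝ ⊗[ℚ] ℝ) :
    Ch x (fun i => bT ((pp x i a ⊗ₜ pp x i b) * τ)) 0 := by
  induction τ using TensorProduct.induction_on with
  | zero => exact Ch.zero.congr (by funext i; simp) rfl
  | add u v hu hv => exact (hu.add hv).congr (by funext i; simp [mul_add]) (by simp)
  | tmul r s =>
    intro η hη
    rcases hab with rfl | rfl
    · obtain ⟨q, hq, h⟩ := exists_q s η hη
      obtain ⟨l, hl, e⟩ := basic (x := x) (LL none r) (LL b s) q⁻¹ (inv_ne_zero hq.ne')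
      refine ⟨l, hl.congr rfl (by simp [sym, LL]) ?_, fun i => ?_⟩
      · have := nrm_LL b s
        simp only [LL, Option.elim_none, dotProduct_zero, mul_zero, zero_add, Rat.cast_inv,
          inv_inv] at this ⊢
        nlinarith [sq_nonneg (q : ℝ)]
      · rw [e]; simp only [ev_LL, Algebra.TensorProduct.tmul_mul_tmul, bT_tmul]
    · obtain ⟨q, hq, h⟩ := exists_q r η hη
      obtain ⟨l, hl, e⟩ := basic (x := x) (LL a r) (LL none s) q hq.ne'
      refine ⟨l, hl.congr rfl (by simp [sym, LL]) ?_, fun i => ?_⟩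
      · have := nrm_LL a r
        simp only [LL, Option.elim_none, dotProduct_zero, mul_zero, add_zero] at this ⊢
        nlinarith [sq_nonneg (q : ℝ)]
      · rw [e]; simp only [ev_LL, Algebra.TensorProduct.tmul_mul_tmul, bT_tmul]

lemma C2 (a b : Fin d) (τ : ℝ ⊗[ℚ] ℝ) :
    Ch x (fun i => bT ((x i a ⊗ₜ x i b) * τ) - bb (x i a * LinearMap.mul' ℚ ℝ τ) (x i b)) 0 := by
  induction τ using TensorProduct.induction_on with
  | zero => exact Ch.zero.congr (by funext i; simp) rfl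
  | add u v hu hv =>
    refine (hu.add hv).congr ?_ (by simp)
    funext i; simp only [mul_add, map_add, Pi.add_apply, AddMonoidHom.add_apply]; abel
  | tmul r s =>
    intro η hη
    obtain ⟨q, hq, h⟩ := exists_q r (η / 2) (by positivity)
    have hq' : (0 : ℝ) < q := by exact_mod_cast hq
    obtain ⟨u, hu1, hu2⟩ := exists_rat_btwn (show s - (q : ℝ) ^ 2 < s by nlinarith)
    set δ := s - u with hδ
    have h1 := basic (x := x) (LL (some a) r) (LL (some b) δ) q hq.ne'
    have h2 := basic (x := x) (LL (some a) (-(r * δ))) (LL (some b) 1) q⁻¹ (inv_ne_zero hq.ne')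
    obtain ⟨l, hl, e⟩ := h1.mul h2 fun i c => Cen.comm _ c
    refine ⟨l, hl.congr rfl ?_ ?_, fun i => ?_⟩
    · ext i j
      simp only [sym, LL, Option.elim_some, Matrix.add_apply, vecMulVec_apply, Pi.single_apply,
        Matrix.zero_apply]
      split_ifs <;> ring
    · have e1 := nrm_LL (some a) r
      have e2 := nrm_LL (some b) δ
      have e3 := nrm_LL (some a) (-(r * δ))
      have e4 := nrm_LL (some b) 1
      have e5 : (q : ℝ)⁻¹ ^ 2 * δ ^ 2 ≤ (q : ℝ) ^ 2 := by
        rw [inv_pow, inv_mul_le_iff₀ (by positivity), ← sq]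
        exact pow_le_pow_left₀ (by linarith) (by linarith) 2
      push_cast
      rw [inv_inv]
      have f1 : (q : ℝ) ^ 2 * ((LL (some a) r).2 ⬝ᵥ (LL (some a) r).2) ≤ (q : ℝ) ^ 2 * r ^ 2 := by
        gcongr
      have f2 : (q : ℝ)⁻¹ ^ 2 * ((LL (some b) δ).2 ⬝ᵥ (LL (some b) δ).2) ≤
          (q : ℝ)⁻¹ ^ 2 * δ ^ 2 := by gcongr
      have f3 : (q : ℝ)⁻¹ ^ 2 * ((LL (some a) (-(r * δ))).2 ⬝ᵥ (LL (some a) (-(r * δ))).2) ≤
          (q : ℝ)⁻¹ ^ 2 * (-(r * δ)) ^ 2 := by gcongr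
      have f4 : (q : ℝ) ^ 2 * ((LL (some b) 1).2 ⬝ᵥ (LL (some b) 1).2) ≤ (q : ℝ) ^ 2 * 1 ^ 2 := by
        gcongr
      have f5 : (q : ℝ)⁻¹ ^ 2 * (-(r * δ)) ^ 2 ≤ (q : ℝ) ^ 2 * r ^ 2 := by
        calc _ = (q : ℝ)⁻¹ ^ 2 * δ ^ 2 * r ^ 2 := by ring
          _ ≤ _ := by gcongr
      nlinarith
    · rw [e]
      simp only [Pi.mul_apply, ← Cen.val_mul, ← toMul_add, ev_LL, pp, Option.elim_some,
        Algebra.TensorProduct.tmul_mul_tmul, bT_tmul, LinearMap.mul'_apply]
      congr 2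
      have e1 : x i b * s = x i b * δ + u • x i b := by rw [Rat.smul_def, hδ]; ring
      have e2 : x i a * (r * s) = - (x i a * -(r * δ)) + u • (x i a * r) := by
        rw [Rat.smul_def, hδ]; ring
      rw [e1, e2, map_add, map_add, AddMonoidHom.add_apply, bb_rat, map_neg,
        AddMonoidHom.neg_apply, mul_one]
      abel

lemma C4 (a : Fin d) : Ch x (fun i => bb (x i a) (x i a)) ((2 : ℝ) • single a a 1) := by
  intro η hη
  refine ⟨_, (Pr.of_pos ((Pos.letter (-LL (some a) 1)).mul (Pos.letter (LL (some a) 1)))).congr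
    rfl ?_ hη.le, fun i => ?_⟩
  · ext i j
    simp only [gram, LL, Option.elim_some, Prod.snd_neg, Matrix.add_apply, vecMulVec_apply,
      Pi.neg_apply, Pi.single_apply, Matrix.smul_apply, Matrix.single_apply, smul_eq_mul]
    simp only [eq_comm (a := a)]
    by_cases h1 : i = a <;> by_cases h2 : j = a <;> simp [h1, h2]
    norm_num
  · have h1 : bb (x i a) (x i a) + bb (x i a) (-(x i a)) = 0 := by rw [← map_add]; simp
    have h2 := congrArg (fun w => (Additive.toMul w).val) h1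
    simp only [toMul_add, Cen.val_mul, toMul_zero, Cen.val_one] at h2
    simp only
    rw [eq_inv_of_mul_eq_one_left h2, bb_apply, toMul_ofMul, b0_val]
    simp [ev_neg, ev_LL, pp, pi2]

variable (x) in
def TC : Prop := ∃ P : Option (Fin d) → Option (Fin d) → ℝ ⊗[ℚ] ℝ,
  (∀ i, ∑ a, ∑ b, (pp x i a ⊗ₜ[ℚ] pp x i b) * P a b = 0) ∧
    ∀ α β, LinearMap.mul' ℚ ℝ (P (some α) (some β)) = if α = β then 1 else 0

lemma step1 (h : TC x) : Good x fun _ => lcs 2 := by
  obtain ⟨P, h1, h2⟩ := h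
  have key : ∀ a b, Ch x (fun i => bT ((pp x i a ⊗ₜ pp x i b) * P a b))
      (a.elim 0 fun α => if b = some α then (2 : ℝ) • single α α 1 else 0) := by
    rintro (_ | a) b
    · exact C3 _ _ (Or.inl rfl) _
    rcases b with _ | b
    · exact (C3 _ _ (Or.inr rfl) _).congr rfl (by simp)
    have := C2 (x := x) a b (P (some a) (some b))
    rw [h2] at this
    by_cases hab : a = b
    · subst hab
      refine (this.add (C4 a)).congr ?_ (by simp)
      funext i; simp [pp]
    · refine this.congr ?_ (by simp [Ne.symm hab])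
      funext i; simp [hab, pp]
  have := Ch.sum Finset.univ _ _ fun a _ => Ch.sum Finset.univ _ _ fun b _ => key a b
  intro η hη
  obtain ⟨l, hl, e⟩ := this η hη
  refine ⟨l, 2, by norm_num, hl.congr rfl ?_ (by linarith), fun i => ?_⟩
  · simp only [Fintype.sum_option, Option.elim_none, Finset.sum_const_zero, Option.elim_some,
      reduceCtorEq, if_false, zero_add, Option.some.injEq, Finset.sum_ite_eq', Finset.mem_univ,
      if_true, ← Finset.smul_sum]
    congr 1
    exact Matrix.sum_single_one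
  · have := e i
    simp only [Finset.sum_apply, ← map_sum, h1, map_zero, toMul_zero, Cen.val_one] at this
    exact (QuotientGroup.eq_one_iff _).1 this

end Vale.Agent.P058
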