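import Vale.Agent.P058.Single

namespace Vale.Agent.P058

open scoped commutatorElement
open Matrix

variable {I : Type} [Fintype I] [DecidableEq I] {d : ℕ} {x : I → Fin d → ℝ}

set_option linter.unusedSectionVars false

variable (I) in
def Hs : ℕ → Subgroup GG
  | 0 => HH I
  | k + 1 => ⁅Hs k, FF⁆

instance Hs_normal (k : ℕ) : (Hs I k).Normal := by
  induction k with
  | zero => exact lcs_normal _
  | succ k ih => exact Subgroup.commutator_normal _ _

lemma Hs_le (k : ℕ) : Hs I k ≤ HH I := by
  induction k with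
  | zero => exact le_rfl
  | succ k ih => exact (Subgroup.commutator_le_left _ _).trans ih

lemma Hs_comm (k : ℕ) {f y : GG} (hf : f ∈ FF) (hy : y ∈ Hs I k) :
    Commute (QuotientGroup.mk' (Hs I (k + 1)) f) (QuotientGroup.mk' (Hs I (k + 1)) y) := by
  apply Commute.symm
  rw [← commutatorElement_eq_one_iff_commute, ← map_commutatorElement]
  exact (QuotientGroup.eq_one_iff _).2 (Subgroup.commutator_mem_commutator hy hf)

lemma step4 (hx : Function.Injective x) {N : I → Subgroup GG} [∀ i, (N i).Normal]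
    (hN : Good x N) (k : I) (m : ℕ) (hk : N k = Hs I (m + 1)) :
    Good x (Function.update N k (Hs I (m + 2))) := by
  refine step_single hN k _ (fun f hf y hy => Hs_comm (m + 1) hf (hk ▸ hy)) ?_
  have key : ∀ y ∈ Hs I (m + 1), ∃ C : ℝ, ∀ M : ℕ, ∃ z, Zc x k z C ∧
      QuotientGroup.mk' (Hs I (m + 2)) z = QuotientGroup.mk' (Hs I (m + 2)) y ^ M := by
    intro y hy
    rw [Hs, Subgroup.commutator_def] at hy
    induction hy using Subgroup.closure_induction with
    | mem _ h =>
      obtain ⟨p, hp, q, hq, rfl⟩ := h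
      obtain ⟨C, hC⟩ := Zc_comm hx k (Hs_le m hp)
      refine ⟨C, fun M => ⟨_, hC (q ^ M), ?_⟩⟩
      rw [map_commutatorElement, map_pow, comm_pow_right, map_commutatorElement]
      rw [← map_commutatorElement]
      exact Hs_comm (m + 1) hq (Subgroup.commutator_mem_commutator hp hq)
    | one => exact ⟨0, fun M => ⟨1, Zc.one, by simp⟩⟩
    | inv _ _ h =>
      obtain ⟨C, hC⟩ := h
      refine ⟨C, fun M => ?_⟩
      obtain ⟨z, h1, h2⟩ := hC M
      exact ⟨_, h1.inv, by rw [map_inv, h2, map_inv, inv_pow]⟩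
    | mul a b ha hb h1 h2 =>
      obtain ⟨C, hC⟩ := h1
      obtain ⟨C', hC'⟩ := h2
      refine ⟨C + C', fun M => ?_⟩
      obtain ⟨z, h1, h2⟩ := hC M
      obtain ⟨z', h3, h4⟩ := hC' M
      refine ⟨_, h1.mul h3, ?_⟩
      rw [map_mul, h2, h4, map_mul, Commute.mul_pow]
      exact Hs_comm (m + 1) (HH_le (Hs_le (m + 1) ha)) hb
  intro y hy ε hε
  obtain ⟨C, hC⟩ := key y (hk ▸ hy)
  obtain ⟨M, hM⟩ := exists_nat_ge (C / ε)
  obtain ⟨z, h1, h2⟩ := hC (M + 1)
  refine ⟨List.replicate (M + 1) 1, by simp, z, h1.mono ?_, by simp [h2]⟩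
  rw [div_le_iff₀ hε] at hM
  simp only [List.length_replicate]; push_cast; nlinarith

variable (I) in
def Om : Type := (HH I).map (QuotientGroup.mk' (Hs I 1))

noncomputable instance : CommGroup (Om I) :=
  { (inferInstance : Group ((HH I).map (QuotientGroup.mk' (Hs I 1)))) with
    mul_comm := by
      rintro ⟨_, a, ha, rfl⟩ ⟨_, b, hb, rfl⟩
      exact Subtype.ext (Hs_comm 0 (HH_le ha) hb) }

def Om.val (w : Om I) : GG ⧸ Hs I 1 := Subtype.val w

lemma Om.ext {a b : Om I} (h : a.val = b.val) : a = b := Subtype.ext h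

noncomputable def Om.hom : Om I →* GG ⧸ Hs I 1 where
  toFun := Om.val
  map_one' := rfl
  map_mul' := fun _ _ => rfl

noncomputable def TT (c : ℝ) : Om I →* Om I where
  toFun w := ⟨QuotientGroup.mk' _ (sg c) * w.val * (QuotientGroup.mk' _ (sg c))⁻¹, by
    obtain ⟨_, a, ha, rfl⟩ := w
    exact ⟨sg c * a * (sg c)⁻¹, Subgroup.Normal.conj_mem inferInstance _ ha _, rfl⟩⟩
  map_one' := Om.ext (by show _ * 1 * _ = 1; simp)
  map_mul' a b := Om.ext (by
    show _ * (a.val * b.val) * _ = (_ * a.val * _) * (_ * b.val * _)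
    group)

lemma TT_val (c : ℝ) (w : Om I) : (TT c w).val =
    QuotientGroup.mk' _ (sg c) * w.val * (QuotientGroup.mk' _ (sg c))⁻¹ := rfl

lemma TT_add (c c' : ℝ) (w : Om I) : TT (c + c') w = TT c (TT c' w) :=
  Om.ext (by simp only [TT_val, sg_add, map_mul]; group)

lemma TT_zero (w : Om I) : TT 0 w = w := Om.ext (by simp [TT_val])

noncomputable def op (l : List ℝ) (w : Om I) : Om I := (l.map fun c => TT c w).prod

lemma op_mul (l : List ℝ) (a b : Om I) : op l (a * b) = op l a * op l b := by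
  simp only [op, map_mul, List.prod_map_mul]

lemma op_inv (l : List ℝ) (a : Om I) : op l a⁻¹ = (op l a)⁻¹ := by
  induction l with
  | nil => simp [op]
  | cons c l ih => simp only [op, List.map_cons, List.prod_cons, map_inv, mul_inv] at ih ⊢; rw [ih]

lemma TT_op (c : ℝ) (l : List ℝ) (w : Om I) : TT c (op l w) = op l (TT c w) := by
  simp only [op, map_list_prod, List.map_map]
  congr 1
  refine List.map_congr_left fun a _ => ?_
  simp only [Function.comp, ← TT_add, add_comm]

lemma op_comm (l l' : List ℝ) (w : Om I) : op l (op l' w) = op l' (op l w) := by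
  induction l with
  | nil => simp [op]
  | cons c l ih =>
    have e : ∀ v : Om I, op (c :: l) v = TT c v * op l v := fun v => rfl
    rw [e, e, op_mul, ih, TT_op]

lemma op_conv (l l' : List ℝ) (w : Om I) :
    op (l.flatMap fun a => l'.map (a + ·)) w = op l (op l' w) := by
  induction l with
  | nil => simp [op]
  | cons c l ih =>
    have e : ∀ v : Om I, op (c :: l) v = TT c v * op l v := fun v => rfl
    rw [e, ← ih]
    simp only [op, List.flatMap_cons, List.map_append, List.prod_append, map_list_prod,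
      List.map_map]
    congr 2
    refine List.map_congr_left fun a _ => ?_
    simp only [Function.comp, TT_add]

variable (x) in
def Zq (k : I) (w : Om I) (c : ℝ) : Prop := ∃ z, Zc x k z c ∧ QuotientGroup.mk' _ z = w.val

lemma Zq.mul {k w w' c c'} (h : Zq x k w c) (h' : Zq x k w' c') : Zq x k (w * w') (c + c') := by
  obtain ⟨z, h1, h2⟩ := h
  obtain ⟨z', h3, h4⟩ := h'
  exact ⟨_, h1.mul h3, by rw [map_mul, h2, h4]; rfl⟩

lemma Zq.op {k w c} (h : Zq x k w c) (l : List ℝ) : Zq x k (op l w) (c * l.length) := by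
  induction l with
  | nil => exact ⟨1, Zc.one.mono (by simp), rfl⟩
  | cons a l ih =>
    obtain ⟨z, h1, h2⟩ := h
    have : Zq x k (TT a w) c := ⟨_, h1.conj (sg a), by simp only [map_mul, map_inv, h2, TT_val]⟩
    obtain ⟨z', h3, h4⟩ := this.mul ih
    exact ⟨z', h3.mono (by simp only [List.length_cons]; push_cast; linarith), h4⟩

lemma tele (c : ℝ) (w : Om I) (M : ℕ) :
    op ((List.range M).map fun j : ℕ => j * c) (w * (TT c w)⁻¹) = w * (TT (M * c) w)⁻¹ := by
  induction M with
  | zero => simp [op, TT_zero]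
  | succ M ih =>
    simp only [op, List.range_succ, List.map_append, List.prod_append, List.map_cons,
      List.map_nil, List.prod_cons, List.prod_nil, mul_one] at ih ⊢
    rw [ih, map_mul, map_inv, ← TT_add]
    push_cast
    rw [add_mul, one_mul]; group

lemma step3 (hx : Function.Injective x) {N : I → Subgroup GG} [∀ i, (N i).Normal]
    (hN : Good x N) (k : I) (hk : N k = lcs (Fintype.card I + 2)) :
    Good x (Function.update N k (Hs I 1)) := by
  have hle : lcs (Fintype.card I + 2) ≤ HH I := Subgroup.lowerCentralSeries_antitone _ (by omega)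
  refine step_single hN k _ (fun f hf y hy => Hs_comm 0 hf (hle (hk ▸ hy))) ?_
  have key : ∀ y ∈ lcs (Fintype.card I + 2), ∃ w : Om I, w.val = QuotientGroup.mk' _ y ∧
      ∀ ε : ℝ, 0 < ε → ∃ l : List ℝ, l ≠ [] ∧ Zq x k (op l w) (ε * l.length) := by
    intro y hy
    rw [lcs_succ, Subgroup.commutator_def] at hy
    induction hy using Subgroup.closure_induction with
    | mem _ h =>
      obtain ⟨p, hp, q, -, rfl⟩ := h
      obtain ⟨C, hC⟩ := Zc_comm hx k hp
      obtain ⟨f, hf, c, rfl⟩ := decomp q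
      let w : Om I := ⟨QuotientGroup.mk' _ p, p, hp, rfl⟩
      have hw : ∀ c, (w * (TT c w)⁻¹).val = QuotientGroup.mk' _ ⁅p, sg c⁆ := by
        intro c
        show w.val * ((TT c w).val)⁻¹ = _
        rw [TT_val, commutatorElement_def]
        simp only [map_mul, map_inv]
        show QuotientGroup.mk' _ p * (_ * QuotientGroup.mk' _ p * _)⁻¹ = _
        group
      refine ⟨w * (TT c w)⁻¹, ?_, fun ε hε => ?_⟩
      · rw [hw, map_commutatorElement, map_commutatorElement, map_mul, comm_right,
          (Hs_comm 0 hf hp).symm.commutator_eq, one_mul]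
        rw [← map_commutatorElement]
        exact Hs_comm 0 hf (Subgroup.commutator_le_left _ ⊤
          (Subgroup.commutator_mem_commutator hp trivial))
      · obtain ⟨M, hM⟩ := exists_nat_ge (C / ε)
        refine ⟨(List.range (M + 1)).map fun j : ℕ => j * c, by simp, ?_⟩
        rw [tele]
        refine ⟨_, (hC _).mono ?_, (hw _).symm⟩
        rw [div_le_iff₀ hε] at hM
        simp only [List.length_map, List.length_range]; push_cast; nlinarith
    | one => exact ⟨1, rfl, fun ε hε => ⟨[0], by simp, 1, Zc.one.mono (by simp [hε.le]), by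
        simp [op]; rfl⟩⟩
    | inv _ _ h =>
      obtain ⟨w, h1, h2⟩ := h
      refine ⟨w⁻¹, by rw [map_inv, ← h1]; rfl, fun ε hε => ?_⟩
      obtain ⟨l, h3, z, h4, h5⟩ := h2 ε hε
      exact ⟨l, h3, z⁻¹, h4.inv, by rw [map_inv, h5, op_inv]; rfl⟩
    | mul a b ha hb h1 h2 =>
      obtain ⟨w, h3, h4⟩ := h1
      obtain ⟨w', h5, h6⟩ := h2
      refine ⟨w * w', by rw [map_mul, ← h3, ← h5]; rfl, fun ε hε => ?_⟩
      obtain ⟨l, e1, e2⟩ := h4 (ε / 2) (by positivity)
      obtain ⟨l', e3, e4⟩ := h6 (ε / 2) (by positivity)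
      refine ⟨l.flatMap fun a => l'.map (a + ·), ?_, ?_⟩
      · obtain ⟨a, ha⟩ := List.exists_mem_of_ne_nil _ e1
        simp only [ne_eq, List.flatMap_eq_nil_iff, List.map_eq_nil_iff, not_forall]
        exact ⟨a, ha, e3⟩
      · rw [op_mul, op_conv, op_conv, op_comm]
        obtain ⟨z, h7, h8⟩ := (e2.op l').mul (e4.op l)
        refine ⟨z, h7.mono (le_of_eq ?_), h8⟩
        simp only [List.length_flatMap, List.length_map, List.map_const', List.sum_replicate,
          smul_eq_mul]
        push_cast; ring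
  intro y hy ε hε
  obtain ⟨w, h1, h2⟩ := key y (hk ▸ hy)
  obtain ⟨l, h3, z, h4, h5⟩ := h2 ε hε
  refine ⟨l.map sg, by simpa, z, by simpa using h4, ?_⟩
  rw [h5]
  show Om.hom (op l w) = _
  simp only [op, map_list_prod, List.map_map]
  congr 1
  refine List.map_congr_left fun a _ => ?_
  show (TT a w).val = _
  simp only [TT_val, h1, Function.comp, map_mul, map_inv]

lemma chain (hx : Function.Injective x) {j k : I} (h : j ≠ k) {f : GG} (hf : f ∈ FF) (η : ℝ)
    (hη : 0 < η) : ∃ C Q, Pos x C Q ∧ trace Q ≤ η ∧ C j = 1 ∧ C k = f := by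
  obtain ⟨a, h1, h2⟩ := exists_let hx h
  have hK : 0 ≤ a.2 ⬝ᵥ a.2 := Finset.sum_nonneg fun i _ => mul_self_nonneg _
  have base : ∀ (t δ : ℝ) (M : ℕ), ∃ C Q, Pos x C Q ∧ trace Q ≤ M * (δ ^ 2 * (a.2 ⬝ᵥ a.2)) ∧
      C j = 1 ∧ C k = g (t + M * δ) * (g t)⁻¹ := by
    intro t δ M
    induction M with
    | zero => exact ⟨1, 0, Pos.one, by simp, rfl, by simp⟩
    | succ M ih =>
      obtain ⟨C, Q, e1, e2, e3, e4⟩ := ih
      refine ⟨_, _, ((Pos.letter (δ • a + (t + M * δ, 0))).mul
        (Pos.const _ (inv_mem (g_mem (t + M * δ))))).mul e1, ?_, ?_, ?_⟩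
      · rw [add_zero, trace_add, trace_gram]
        simp only [Prod.snd_add, Prod.smul_snd, add_zero, smul_dotProduct, dotProduct_smul,
          smul_eq_mul]
        push_cast; nlinarith
      · simp only [Pi.mul_apply, ev_add, ev_smul, h2, e3]; simp [ev]
      · simp only [Pi.mul_apply, ev_add, ev_smul, h1, e4]
        have : δ * 1 + ev x (t + M * δ, 0) k = t + ((M + 1 : ℕ) : ℝ) * δ := by
          simp [ev]; ring
        rw [this]; group
  have two : ∀ (s t η : ℝ), 0 < η → ∃ C Q, Pos x C Q ∧ trace Q ≤ η ∧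
      C j = 1 ∧ C k = g s * (g t)⁻¹ := by
    intro s t η hη
    obtain ⟨M, hM⟩ := exists_nat_gt ((s - t) ^ 2 * (a.2 ⬝ᵥ a.2) / η)
    have hM0 : (0 : ℝ) < M := lt_of_le_of_lt (by positivity) hM
    obtain ⟨C, Q, e1, e2, e3, e4⟩ := base t ((s - t) / M) M
    refine ⟨C, Q, e1, e2.trans ?_, e3, ?_⟩
    · rw [div_lt_iff₀ hη] at hM
      have : (M : ℝ) * (((s - t) / M) ^ 2 * (a.2 ⬝ᵥ a.2)) = (s - t) ^ 2 * (a.2 ⬝ᵥ a.2) / M := by
        field_simp
      rw [this, div_le_iff₀ hM0]; linarith
    · rw [e4]; congr 2; field_simp; ring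
  induction hf using Subgroup.closure_induction'' generalizing η with
  | mem _ h => obtain ⟨t, rfl⟩ := h; simpa using two t 0 η hη
  | inv_mem _ h => obtain ⟨t, rfl⟩ := h; simpa using two 0 t η hη
  | one => exact ⟨1, 0, Pos.one, by simp [hη.le], rfl, rfl⟩
  | mul _ _ _ _ h1 h2 =>
    obtain ⟨C, Q, e1, e2, e3, e4⟩ := h1 (η / 2) (by positivity)
    obtain ⟨C', Q', e5, e6, e7, e8⟩ := h2 (η / 2) (by positivity)
    exact ⟨_, _, e1.mul e5, by rw [trace_add]; linarith, by simp [e3, e7], by simp [e4, e8]⟩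

lemma cheap (hx : Function.Injective x) (k : I) (A : Finset I) (hA : k ∉ A) {y : GG}
    (hy : y ∈ Hs I A.card) (η : ℝ) (hη : 0 < η) :
    ∃ l, Pr x l 0 η ∧ l k = y ∧ ∀ j ∈ A, l j = 1 := by
  induction A using Finset.induction_on generalizing y η with
  | empty =>
    exact ⟨_, (Pr.of_pos (Pos.const y (HH_le hy))).congr rfl rfl hη.le, rfl, by simp⟩
  | insert j A hj ih =>
    rw [Finset.card_insert_of_notMem hj, Hs, Subgroup.commutator_def] at hy
    induction hy using Subgroup.closure_induction generalizing η with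
    | mem _ h =>
      obtain ⟨p, hp, q, hq, rfl⟩ := h
      obtain ⟨_, ⟨X, Y, Q, hX, hY, rfl, hQ⟩, e1, e2⟩ :=
        ih (fun h => hA (by simp [h])) hp (η / 3) (by positivity)
      obtain ⟨C, QC, c1, c2, c3, c4⟩ := chain hx (j := j) (k := k) (fun h => hA (by simp [h]))
        (mul_mem (hX.mem j) (mul_mem (inv_mem (hY.mem k)) hq)) (η / 3) (by positivity)
      have hC := (Pos.const (x := x) _ (inv_mem (hX.mem j))).mul c1
      refine ⟨_, ⟨_, _, _, ((hX.mul hC).mul hY).congr rfl ?_, (hY.mul hC).mul hX, rfl, ?_⟩, ?_, ?_⟩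
      · abel
      · simp only [trace_add, add_zero, zero_add]; linarith
      · rw [← e1]; simp only [Pi.mul_apply, Pi.inv_apply, c4, commutatorElement_def]; group
      · intro i hi
        rcases Finset.mem_insert.1 hi with rfl | hi
        · simp only [Pi.mul_apply, Pi.inv_apply, c3]; group
        · have := e2 i hi
          simp only [Pi.mul_apply, Pi.inv_apply, mul_inv_eq_one] at this ⊢
          rw [this]
    | one => exact ⟨1, Pr.one.congr rfl rfl hη.le, rfl, fun _ _ => rfl⟩
    | inv _ _ h =>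
      obtain ⟨l, hl, e1, e2⟩ := h η hη
      exact ⟨l⁻¹, hl.inv.congr rfl (by simp) (by simp), by simp [e1],
        fun i hi => by simp [e2 i hi]⟩
    | mul _ _ _ _ h1 h2 =>
      obtain ⟨l, hl, e1, e2⟩ := h1 (η / 2) (by positivity)
      obtain ⟨l', hl', e3, e4⟩ := h2 (η / 2) (by positivity)
      obtain ⟨u, _, hu⟩ := hl.mul
      refine ⟨_, (hu _ _ _ (hl'.conj (u k)⁻¹)).congr rfl (by simp) (by linarith), ?_,
        fun i hi => ?_⟩
      · simp [e1, e3, mul_assoc]
      · simp [e2 i hi, e4 i hi]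

lemma step5 (hx : Function.Injective x) {N : I → Subgroup GG}
    (hN : Good x N) (k : I) (hk : N k = Hs I (Fintype.card I)) :
    Good x (Function.update N k ⊥) := by
  intro η hη
  obtain ⟨l, t, ht, hl, hm⟩ := hN (η / 2) (by positivity)
  have hle : Hs I (Fintype.card I) ≤ Hs I (Finset.univ.erase k).card := by
    have : Fintype.card I = (Finset.univ.erase k).card + 1 := by
      rw [Finset.card_erase_add_one (Finset.mem_univ _), Finset.card_univ]
    rw [this]; exact Subgroup.commutator_le_left _ _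
  obtain ⟨l', h1, h2, h3⟩ := cheap hx k (Finset.univ.erase k) (by simp)
    (inv_mem (hle (hk ▸ hm k))) (η / 2 * t) (by positivity)
  have : l' = Pi.mulSingle k (l k)⁻¹ := by
    funext i
    by_cases hi : i = k
    · subst hi; simp [h2]
    · simp [hi, h3 i (by simp [hi])]
  refine ⟨_, t, ht, (hl.mul_single (this ▸ h1)).congr rfl (by simp) (by linarith), fun i => ?_⟩
  by_cases hi : i = k
  · subst hi; simp
  · simp [hi, hm i]

lemma all_coords (K K' : Subgroup GG) [K.Normal] [K'.Normal]
    (step : ∀ (N : I → Subgroup GG) [∀ i, (N i).Normal], Good x N → ∀ k, N k = K →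
      Good x (Function.update N k K')) (h : Good x fun _ => K) : Good x fun _ => K' := by
  have : ∀ A : Finset I, Good x fun i => if i ∈ A then K' else K := by
    intro A
    induction A using Finset.induction_on with
    | empty => simpa using h
    | insert j A hj ih =>
      have : ∀ i, (if i ∈ A then K' else K).Normal := fun i => by split_ifs <;> infer_instance
      have := step _ ih j (by simp [hj])
      convert this using 1
      funext i
      by_cases hi : i = j
      · subst hi; simp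
      · simp [hi]
  simpa using this Finset.univ

theorem exact_pair [Nonempty I] (hx : Function.Injective x) (h : TC x) (η : ℝ) (hη : 0 < η) :
    ∃ U Q t, 0 < t ∧ Pos x U Q ∧ Pos x U (Q + t • 1) ∧ trace Q ≤ η * t := by
  have h1 : ∀ k, Good x fun _ => lcs (k + 2) := by
    intro k
    induction k with
    | zero => exact step1 h
    | succ k ih => exact step2 _ (by omega) ih
  have h2 : ∀ m, Good x fun _ => Hs I (m + 1) := by
    intro m
    induction m with
    | zero => exact all_coords _ _ (fun N _ hN k hk => step3 hx hN k hk) (h1 _)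
    | succ m ih => exact all_coords _ _ (fun N _ hN k hk => step4 hx hN k m hk) ih
  have h3 : Good x fun _ => Hs I (Fintype.card I) := by
    have := h2 (Fintype.card I - 1)
    rwa [Nat.sub_add_cancel Fintype.card_pos] at this
  obtain ⟨l, t, ht, ⟨V, Y, Q, a, b, rfl, c⟩, hm⟩ :=
    all_coords _ _ (fun N _ hN k hk => step5 hx hN k hk) h3 η hη
  have : V = Y := by
    funext i
    have := hm i
    simpa [mul_inv_eq_one] using this
  exact ⟨Y, Q, t, ht, b, this ▸ a, c⟩

end Vale.Agent.P058
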