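import Vale.Agent.P058.Steps

namespace Vale.Agent.P058

open Matrix

lemma exists_min_ideal {M : Type} [Nonempty M] [Semigroup M] [TopologicalSpace M] [CompactSpace M]
    [T2Space M] (hc : ∀ r : M, Continuous (· * r)) :
    ∃ e : M, e * e = e ∧ ∀ z, ∃ y, y * (e * z * e) = e := by
  let S : Set (Set M) := {N | IsClosed N ∧ N.Nonempty ∧ ∀ m, ∀ m' ∈ N, m * m' ∈ N}
  have hN : ∃ N, Minimal (· ∈ S) N := by
    refine zorn_superset _ fun c hcs hch => ?_
    refine ⟨⋂₀ c, ⟨isClosed_sInter fun t ht => (hcs ht).1, ?_, fun m m' hm' => ?_⟩, fun s hs =>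
      Set.sInter_subset_of_mem hs⟩
    · obtain rfl | hcnemp := c.eq_empty_or_nonempty
      · rw [Set.sInter_empty]
        apply Set.univ_nonempty
      rw [Set.sInter_eq_iInter]
      have := hcnemp.coe_sort
      exact IsCompact.nonempty_iInter_of_directed_nonempty_isCompact_isClosed ((↑) : c → Set M)
        (DirectedOn.directed_val (IsChain.directedOn hch.symm)) (fun i => (hcs i.prop).2.1)
        (fun i => (hcs i.prop).1.isCompact) fun i => (hcs i.prop).1
    · exact fun t ht => (hcs ht).2.2 m m' (Set.mem_sInter.mp hm' t ht)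
  obtain ⟨N, hN⟩ := hN
  obtain ⟨h1, h2, h3⟩ := hN.prop
  obtain ⟨e, he, hee⟩ := exists_idempotent_in_compact_subsemigroup hc N h2 h1.isCompact
    fun a _ b hb => h3 a b hb
  refine ⟨e, hee, fun z => ?_⟩
  have hm : e * z * e ∈ N := h3 _ _ he
  have : Set.range (· * (e * z * e)) = N := by
    apply hN.eq_of_subset
    · refine ⟨(isCompact_range (hc _)).isClosed, Set.range_nonempty _, ?_⟩
      rintro m _ ⟨y, rfl⟩
      exact ⟨m * y, mul_assoc _ _ _⟩
    · rintro _ ⟨y, rfl⟩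
      exact h3 _ _ hm
  rw [← this] at he
  exact he

lemma exists_group {M : Type} [Nonempty M] [Semigroup M] [TopologicalSpace M] [CompactSpace M]
    [T2Space M] (hc : ∀ r : M, Continuous (· * r)) :
    ∃ (Γ : Type) (_ : Group Γ) (φ : Γ → M) (γ : M → Γ), (∀ a b, φ (a * b) = φ a * φ b) ∧
      ∀ z, φ (γ z) = φ 1 * z * φ 1 := by
  obtain ⟨e, he, h⟩ := exists_min_ideal hc
  choose inv hinv using h
  let Γ := {x : M // e * x * e = x}
  have l : ∀ x : Γ, e * x.1 = x.1 := fun x => by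
    conv_lhs => rw [← x.2, ← mul_assoc, ← mul_assoc, he, x.2]
  have r : ∀ x : Γ, x.1 * e = x.1 := fun x => by
    conv_lhs => rw [← x.2, mul_assoc, he, x.2]
  have mk : ∀ z, e * (e * z * e) * e = e * z * e := fun z => by
    rw [← mul_assoc, ← mul_assoc, he, mul_assoc, he]
  let _ : Mul Γ := ⟨fun a b => ⟨a.1 * b.1, by rw [← mul_assoc, l, mul_assoc, r]⟩⟩
  let _ : One Γ := ⟨⟨e, by rw [he, he]⟩⟩
  let _ : Inv Γ := ⟨fun a => ⟨e * inv a.1 * e, mk _⟩⟩
  refine ⟨Γ, Group.ofLeftAxioms (fun a b c => Subtype.ext (mul_assoc _ _ _))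
    (fun a => Subtype.ext (l a)) (fun a => Subtype.ext ?_), Subtype.val,
    fun z => ⟨e * z * e, mk z⟩, fun _ _ => rfl, fun _ => rfl⟩
  show e * inv a.1 * e * a.1 = e
  have := hinv a.1
  rw [a.2] at this
  rw [mul_assoc, l, mul_assoc, this, he]

section act
variable {Γ : Type} [Group Γ] (γ : ℝ → Γ)

def shift : Multiplicative ℝ →* Equiv.Perm (ℝ × Γ) where
  toFun s := Equiv.prodCongr (Equiv.addRight s.toAdd) (Equiv.refl Γ)
  map_one' := by ext <;> simp
  map_mul' a b := by ext <;> simp [add_comm, add_left_comm]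

def tw : Equiv.Perm (ℝ × Γ) where
  toFun p := (p.1, γ (-p.1) * p.2)
  invFun p := (p.1, (γ (-p.1))⁻¹ * p.2)
  left_inv p := by simp
  right_inv p := by simp

noncomputable def act : GG →* Equiv.Perm (ℝ × Γ) :=
  Monoid.Coprod.lift shift ((MulAut.conj (tw γ)).toMonoidHom.comp shift)

lemma act_g (t : ℝ) (y : Γ) : act γ (g t) (0, y) = (0, γ t * (γ 0)⁻¹ * y) := by
  rw [g, ← rh_neg, map_mul]
  simp [act, sg, rh, shift, tw, Equiv.Perm.inv_def, mul_assoc]

noncomputable def val (f : GG) : Γ := (act γ f (0, 1)).2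

lemma act_FF {f : GG} (hf : f ∈ FF) (y : Γ) : act γ f (0, y) = (0, val γ f * y) := by
  have : ∃ z : Γ, ∀ y, act γ f (0, y) = (0, z * y) := by
    induction hf using Subgroup.closure_induction with
    | mem x hx => obtain ⟨t, rfl⟩ := hx; exact ⟨_, act_g γ t⟩
    | one => exact ⟨1, by simp⟩
    | mul a b _ _ h1 h2 =>
      obtain ⟨z, h1⟩ := h1
      obtain ⟨z', h2⟩ := h2
      exact ⟨z * z', fun y => by rw [map_mul, Equiv.Perm.mul_apply, h2, h1, mul_assoc]⟩
    | inv a _ h1 =>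
      obtain ⟨z, h1⟩ := h1
      refine ⟨z⁻¹, fun y => ?_⟩
      rw [map_inv, Equiv.Perm.inv_eq_iff_eq, h1]; simp
  obtain ⟨z, hz⟩ := this
  simp [val, hz]

lemma val_mul {f f' : GG} (hf : f ∈ FF) (hf' : f' ∈ FF) : val γ (f * f') = val γ f * val γ f' := by
  rw [val, map_mul, Equiv.Perm.mul_apply, act_FF γ hf', act_FF γ hf, mul_one]

lemma val_g (t : ℝ) : val γ (g t) = γ t * (γ 0)⁻¹ := by simp [val, act_g]

end act

abbrev Wd := FreeMonoid ℝ

def BS : Type := Ultrafilter Wd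

noncomputable instance : Semigroup BS := Ultrafilter.semigroup (M := Wd)
noncomputable instance : TopologicalSpace BS := inferInstanceAs (TopologicalSpace (Ultrafilter Wd))
instance : CompactSpace BS := inferInstanceAs (CompactSpace (Ultrafilter Wd))
instance : T2Space BS := inferInstanceAs (T2Space (Ultrafilter Wd))
instance : Nonempty BS := inferInstanceAs (Nonempty (Ultrafilter Wd))

def BS.u (a : BS) : Ultrafilter Wd := a

lemma BS.cont (r : BS) : Continuous (· * r) := Ultrafilter.continuous_mul_left (M := Wd) r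

lemma BS.mem_mul (a b : BS) (B : Set Wd) :
    B ∈ (a * b).u ↔ {m | {m' | m * m' ∈ B} ∈ b.u} ∈ a.u := Iff.rfl

variable {I : Type} {d : ℕ} (x : I → Fin d → ℝ)

def wd (L : List (Let d)) (i : I) : Wd := FreeMonoid.ofList (L.map fun l => ev x l i)

def RR (u : I → BS) (Q : Mat d) : Prop :=
  ∀ B : I → Set Wd, (∀ i, B i ∈ (u i).u) → ∃ L : List (Let d), (L.map gram).sum = Q ∧
    ∀ i, wd x L i ∈ B i

variable {x}

lemma RR.mul {u v : I → BS} {Q Q'} (h : RR x u Q) (h' : RR x v Q') :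
    RR x (fun i => u i * v i) (Q + Q') := by
  intro B hB
  obtain ⟨L, h1, h2⟩ := h _ fun i => (BS.mem_mul _ _ _).1 (hB i)
  obtain ⟨L', h3, h4⟩ := h' _ h2
  refine ⟨L ++ L', by simp [h1, h3], fun i => ?_⟩
  have := h4 i
  simpa [wd] using this

lemma RR.const [Finite I] (a : BS) : RR x (fun _ => a) 0 := by
  intro B hB
  have : ⋂ i, B i ∈ a.u := (Filter.iInter_mem (f := (a.u : Filter Wd))).2 hB
  obtain ⟨w, hw⟩ := Ultrafilter.nonempty_of_mem this
  refine ⟨(FreeMonoid.toList w).map fun s => (s, 0), ?_, fun i => ?_⟩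
  · simp [gram, Function.comp_def]
  · have := Set.mem_iInter.1 hw i
    simpa [wd, ev, Function.comp_def] using this

noncomputable def BS.pt (t : ℝ) : BS := (pure (FreeMonoid.of t) : Ultrafilter Wd)

lemma RR.letter (l : Let d) : RR x (fun i => BS.pt (ev x l i)) (gram l) := by
  intro B hB
  exact ⟨[l], by simp, fun i => hB i⟩

lemma RR.congr {u v : I → BS} {Q Q'} (h : RR x u Q) (h1 : u = v) (h2 : Q = Q') : RR x v Q' :=
  h1 ▸ h2 ▸ h

lemma Pos.RR [Finite I] {Γ : Type} [Group Γ] {φ : Γ → BS} {γ : BS → Γ}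
    (h1 : ∀ a b, φ (a * b) = φ a * φ b) (h2 : ∀ z, φ (γ z) = φ 1 * z * φ 1) {U Q}
    (h : Pos x U Q) : RR x (fun i => φ (val (fun t => γ (BS.pt t)) (U i))) Q := by
  induction h with
  | const f hf => exact RR.const _
  | letter l =>
    refine ((((RR.const (φ 1)).mul (RR.letter l)).mul (RR.const (φ 1))).mul
      (RR.const (φ (γ (BS.pt 0))⁻¹))).congr ?_ (by simp)
    funext i
    rw [val_g, h1, h2]
  | mul a b ha hb =>
    refine (ha.mul hb).congr ?_ rfl
    funext i
    rw [Pi.mul_apply, val_mul _ (a.mem i) (b.mem i), h1]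

lemma Pos.sub {α : Type} [DecidableEq α] (s : Finset α) (μ τ : α → Mat d)
    (h : ∀ a ∈ s, ∃ U, Pos x U (μ a) ∧ Pos x U (μ a + τ a)) :
    ∃ U, Pos x U (∑ a ∈ s, μ a) ∧ ∀ a ∈ s, Pos x U (∑ a ∈ s, μ a + τ a) := by
  induction s using Finset.induction_on with
  | empty => exact ⟨1, by simpa using Pos.one, by simp⟩
  | insert a s ha ih =>
    obtain ⟨U, h1, h2⟩ := h a (by simp)
    obtain ⟨V, h3, h4⟩ := ih fun b hb => h b (by simp [hb])
    refine ⟨U * V, by rw [Finset.sum_insert ha]; exact h1.mul h3, fun b hb => ?_⟩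
    rw [Finset.sum_insert ha]
    rcases Finset.mem_insert.1 hb with rfl | hb
    · exact (h2.mul h3).congr rfl (by abel)
    · exact (h1.mul (h4 b hb)).congr rfl (by abel)

lemma padded [Fintype I] [DecidableEq I] [Nonempty I] (hx : Function.Injective x) (h : TC x)
    (n : ℕ) (hn : 0 < n) : ∃ U, ∀ j ∈ Finset.Icc 1 n, Pos x U ((j : ℝ)⁻¹ • 1) := by
  have hn' : (0 : ℝ) < n := by exact_mod_cast hn
  obtain ⟨U, Q, t, ht, h1, h2, h3⟩ := exact_pair hx h ((n : ℝ)⁻¹ ^ 2) (by positivity)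
  obtain ⟨X, hX⟩ := h1.compl
  have h4 := h1.tr_nonneg
  let τ : ℕ → ℝ := fun j => (j : ℝ)⁻¹ - (n : ℝ)⁻¹
  have hτ : ∀ j ∈ Finset.Icc 1 n, 0 ≤ τ j ∧ τ j ≤ 1 := by
    intro j hj
    obtain ⟨a, b⟩ := Finset.mem_Icc.1 hj
    have a' : (1 : ℝ) ≤ j := by exact_mod_cast a
    have b' : (j : ℝ) ≤ n := by exact_mod_cast b
    have e1 : (n : ℝ)⁻¹ ≤ (j : ℝ)⁻¹ := inv_anti₀ (by linarith) b'
    have e2 : (j : ℝ)⁻¹ ≤ 1 := inv_le_one_of_one_le₀ a'
    have e3 : 0 < (n : ℝ)⁻¹ := by positivity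
    exact ⟨by simp only [τ]; linarith, by simp only [τ]; linarith⟩
  obtain ⟨V, -, hV⟩ := Pos.sub (x := x) (Finset.Icc 1 n)
    (fun j => (τ j / t * trace Q) • (1 : Mat d)) (fun j => τ j • (1 : Mat d)) (by
      intro j hj
      have e : √(τ j / t) ^ 2 = τ j / t := Real.sq_sqrt (div_nonneg (hτ j hj).1 ht.le)
      refine ⟨_, ((h1.mul hX).psi √(τ j / t)).congr rfl ?_,
        ((h2.mul hX).psi √(τ j / t)).congr rfl ?_⟩
      · rw [e, add_sub_cancel, smul_smul]
      · rw [e, add_right_comm, add_sub_cancel, smul_add, smul_smul, smul_smul,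
          div_mul_cancel₀ _ ht.ne'])
  have hs : ∑ j ∈ Finset.Icc 1 n, τ j / t * trace Q ≤ (n : ℝ)⁻¹ := by
    have : ∀ j ∈ Finset.Icc 1 n, τ j / t * trace Q ≤ (n : ℝ)⁻¹ ^ 2 := by
      intro j hj
      calc τ j / t * trace Q ≤ 1 / t * ((n : ℝ)⁻¹ ^ 2 * t) := by
            gcongr; exact (hτ j hj).2
        _ = _ := by field_simp
    refine (Finset.sum_le_card_nsmul _ _ _ this).trans (le_of_eq ?_)
    simp; field_simp
  obtain ⟨Y, hY⟩ := Pos.scalar (x := x) _ (sub_nonneg.2 hs)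
  refine ⟨V * Y, fun j hj => ((hV j hj).mul hY).congr rfl ?_⟩
  rw [← Finset.sum_smul, ← add_smul, ← add_smul]
  congr 1
  simp only [τ]; ring

theorem words [Fintype I] [DecidableEq I] [Nonempty I] (hx : Function.Injective x) (h : TC x)
    {κ : Type} [Finite κ] (χ : Wd → κ) :
    ∃ L : List (Let d), (L.map gram).sum = 1 ∧ ∃ c, ∀ i, χ (wd x L i) = c := by
  classical
  obtain ⟨Γ, _, φ, γ, h1, h2⟩ := exists_group BS.cont
  obtain ⟨ι, _, hι⟩ := Combinatorics.Line.exists_mono_in_high_dimension I κ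
  have hcol : ∀ a : BS, ∃ c, χ ⁻¹' {c} ∈ a.u := fun a => by
    obtain ⟨c, hc⟩ := Ultrafilter.eq_pure_of_finite (a.u.map χ)
    exact ⟨c, Ultrafilter.mem_map.1 (hc ▸ Ultrafilter.mem_pure.2 rfl)⟩
  choose col hcol using hcol
  obtain ⟨U, hU⟩ := padded hx h (Fintype.card ι + 1) (by omega)
  let u : I → Γ := fun i => val (fun t => γ (BS.pt t)) (U i)
  obtain ⟨l, c, hl⟩ := hι fun W => col (φ (Finset.univ.toList.map fun p => u (W p)).prod)
  let j := (Finset.univ.filter fun p => l.idxFun p = none).card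
  have hj : j ∈ Finset.Icc 1 (Fintype.card ι + 1) := by
    obtain ⟨p, hp⟩ := l.proper
    refine Finset.mem_Icc.2 ⟨Finset.card_pos.2 ⟨p, by simpa⟩, ?_⟩
    exact (Finset.card_le_univ _).trans (by omega)
  have key : ∀ P : List ι, RR x (fun i => φ (P.map fun p => u (l i p)).prod)
      ((P.map fun p => if l.idxFun p = none then (j : ℝ)⁻¹ else 0).sum • 1) := by
    intro P
    induction P with
    | nil => exact (RR.const (φ 1)).congr rfl (by simp)
    | cons p P ih =>
      have : RR x (fun i => φ (u (l i p))) ((if l.idxFun p = none then (j : ℝ)⁻¹ else 0) • 1) := by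
        rcases hp : l.idxFun p with _ | a
        · exact ((hU j hj).RR h1 h2).congr (by funext i; simp [hp, u]) (by simp)
        · exact (RR.const (φ (u a))).congr (by funext i; simp [hp]) (by simp)
      exact (this.mul ih).congr (by funext i; simp [h1]) (by simp [add_smul])
  obtain ⟨L, e1, e2⟩ := key Finset.univ.toList (fun _ => χ ⁻¹' {c}) fun i => by
    have := hcol (φ (Finset.univ.toList.map fun p => u (l i p)).prod)
    have e := hl i
    simp only at e
    rwa [e] at this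
  refine ⟨L, ?_, c, e2⟩
  rw [e1, Finset.sum_map_toList, ← Finset.sum_filter, Finset.sum_const, nsmul_eq_mul,
    mul_inv_cancel₀, one_smul]
  have := (Finset.mem_Icc.1 hj).1
  exact_mod_cast (by omega : j ≠ 0)

end Vale.Agent.P058
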